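import Mathlib

open Polynomial

namespace Vale.Agent.P314

variable {K : Type} [Field K]

/-- dilation of polynomials -/
noncomputable def sg (q : K) : K[X] →+* K[X] := Polynomial.compRingHom (C q * X)

lemma sg_coeff (q : K) (p : K[X]) (k : ℕ) : (sg q p).coeff k = p.coeff k * q ^ k := by
  simp [sg]

lemma sg_eval (q : K) (p : K[X]) (x : K) : (sg q p).eval x = p.eval (q * x) := by
  simp [sg, eval_comp]

lemma sg_C (q c : K) : sg q (C c) = C c := by simp [sg]

lemma sg_coe (q : K) (p : K[X]) :
    ((sg q p : K[X]) : PowerSeries K) = PowerSeries.rescale q (p : PowerSeries K) := by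
  ext k
  simp [sg_coeff, mul_comm]

lemma sg_ne {q : K} (hq : q ≠ 0) {p : K[X]} (hp : p ≠ 0) : sg q p ≠ 0 := by
  intro h
  apply hp
  ext k
  have := sg_coeff q p k
  rw [h, coeff_zero] at this
  simpa [hq] using this.symm

lemma sg_natDegree {q : K} (hq : q ≠ 0) (p : K[X]) : (sg q p).natDegree = p.natDegree := by
  have : (sg q p).support = p.support := by
    ext k; simp [sg_coeff, hq]
  unfold natDegree degree
  rw [this]

lemma sg_lead {q : K} (hq : q ≠ 0) (p : K[X]) :
    (sg q p).leadingCoeff = p.leadingCoeff * q ^ p.natDegree := by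
  rw [leadingCoeff, sg_natDegree hq, sg_coeff, leadingCoeff]

lemma pow_inj {q : K} (hq : q ≠ 0) (hq1 : ∀ k, 1 ≤ k → q ^ k ≠ 1) :
    Function.Injective fun k : ℕ => q ^ k := by
  intro a b h
  simp only at h
  by_contra hne
  wlog hab : a < b generalizing a b
  · exact this h.symm (Ne.symm hne) (by omega)
  obtain ⟨c, rfl⟩ := Nat.exists_eq_add_of_lt hab
  apply hq1 (c + 1) (by omega)
  rw [add_assoc, pow_add] at h
  exact (mul_right_eq_self₀.mp h.symm).resolve_right (pow_ne_zero _ hq)

lemma invariant {q : K} (hq : q ≠ 0) (hq1 : ∀ k, 1 ≤ k → q ^ k ≠ 1) {a b : K[X]} (hb : b ≠ 0)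
    (h : b * sg q a = sg q b * a) : ∃ c : K, a = C c * b := by
  have key : ∀ a : K[X], a ≠ 0 → b * sg q a = sg q b * a → a.natDegree = b.natDegree := by
    intro a ha h
    have h1 := congrArg leadingCoeff h
    rw [leadingCoeff_mul, leadingCoeff_mul, sg_lead hq, sg_lead hq] at h1
    have h2 : q ^ a.natDegree = q ^ b.natDegree := by
      apply mul_left_cancel₀ (mul_ne_zero (leadingCoeff_ne_zero.mpr ha) (leadingCoeff_ne_zero.mpr hb))
      linear_combination h1
    exact pow_inj hq hq1 h2
  refine ⟨a.coeff b.natDegree / b.leadingCoeff, ?_⟩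
  by_contra hne
  have hne' := sub_ne_zero.mpr hne
  have h1 := key _ hne' (by
    rw [map_sub, map_mul, sg_C]
    linear_combination h)
  have h2 := leadingCoeff_ne_zero.mpr hne'
  apply h2
  rw [leadingCoeff, h1, coeff_sub, coeff_C_mul, ← leadingCoeff,
    div_mul_cancel₀ _ (leadingCoeff_ne_zero.mpr hb), sub_self]

lemma ex_last {b : K[X]} (hb : b ≠ 0) {r : K} (hr : Function.Injective fun k : ℕ => r ^ k)
    {α : K} (hα : α ≠ 0) (h0 : b.eval α = 0) :
    ∃ k : ℕ, b.eval (r ^ k * α) = 0 ∧ b.eval (r ^ (k + 1) * α) ≠ 0 := by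
  by_contra hc
  push Not at hc
  have hall : ∀ k : ℕ, b.eval (r ^ k * α) = 0 := by
    intro k
    induction k with
    | zero => simpa using h0
    | succ k ih => exact hc k ih
  apply hb
  apply eq_zero_of_infinite_isRoot
  refine Set.infinite_of_injective_forall_mem (f := fun k : ℕ => r ^ k * α) ?_ hall
  intro x y hxy
  exact hr (mul_right_cancel₀ hα hxy)

lemma no_cobound [IsAlgClosed K] {q : K} (hq : q ≠ 0) (hq1 : ∀ k, 1 ≤ k → q ^ k ≠ 1) {n : ℕ}
    (hn : 1 ≤ n) {a0 b0 c : K[X]} (hb0 : b0 ≠ 0) (hc : c.natDegree < n)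
    (h : (1 - X ^ n) * (b0 * sg q a0 - sg q b0 * a0) = b0 * sg q b0 * (X * c)) : c = 0 := by
  classical
  obtain ⟨a, b, ha, hb, hu⟩ := extract_gcd a0 b0
  have hco : IsCoprime a b := (gcd_isUnit_iff a b).mp hu
  set g := gcd a0 b0 with hg
  have hg0 : g ≠ 0 := fun h0 => hb0 (by rw [hb, h0, zero_mul])
  have hbn : b ≠ 0 := fun h0 => hb0 (by rw [hb, h0, mul_zero])
  have h1 : (1 - X ^ n) * (b * sg q a - sg q b * a) = b * sg q b * (X * c) := by
    apply mul_left_cancel₀ (mul_ne_zero hg0 (sg_ne hq hg0))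
    rw [ha, hb, map_mul, map_mul] at h
    linear_combination h
  have d1 : b ∣ (1 - X ^ n) * sg q b := by
    apply hco.symm.dvd_of_dvd_mul_right
    exact ⟨(1 - X ^ n) * sg q a - sg q b * (X * c), by linear_combination -h1⟩
  have d2 : sg q b ∣ (1 - X ^ n) * b := by
    apply (hco.map (sg q)).symm.dvd_of_dvd_mul_right
    exact ⟨(1 - X ^ n) * a + b * (X * c), by linear_combination h1⟩
  have hinj := pow_inj hq hq1
  have hinj' : Function.Injective fun k : ℕ => q⁻¹ ^ k := by
    intro x y hxy
    simp only [inv_pow, inv_inj] at hxy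
    exact hinj hxy
  have noroot : ∀ α : K, α ≠ 0 → b.eval α ≠ 0 := by
    intro α hα h0
    obtain ⟨k, hk, hk'⟩ := ex_last hbn hinj hα h0
    obtain ⟨l, hl, hl'⟩ := ex_last hbn hinj' hα h0
    have e1 := eval_eq_zero_of_dvd_of_eval_eq_zero d1 hk
    have e2 : (sg q b).eval (q⁻¹ ^ (l + 1) * α) = 0 := by
      rw [sg_eval, ← hl, pow_succ', ← mul_assoc, ← mul_assoc, mul_inv_cancel₀ hq, one_mul]
    have e3 := eval_eq_zero_of_dvd_of_eval_eq_zero d2 e2
    rw [eval_mul, sg_eval, ← mul_assoc, ← pow_succ'] at e1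
    rw [eval_mul] at e3
    have f1 := (mul_eq_zero.mp e1).resolve_right hk'
    have f3 := (mul_eq_zero.mp e3).resolve_right hl'
    simp only [eval_sub, eval_one, eval_pow, eval_X] at f1 f3
    apply hq1 ((k + (l + 1)) * n) (Nat.mul_pos (by omega) hn)
    have g1 : (q ^ k * α) ^ n = 1 := by linear_combination -f1
    have g3 : (q⁻¹ ^ (l + 1) * α) ^ n = 1 := by linear_combination -f3
    have : q ^ k * α = q ^ (k + (l + 1)) * (q⁻¹ ^ (l + 1) * α) := by
      rw [inv_pow, pow_add]; field_simp
    rw [this, mul_pow, g3, mul_one, ← pow_mul] at g1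
    exact g1
  have cop : IsCoprime (1 - X ^ n : K[X]) (b * sg q b * X) := by
    rw [Polynomial.isCoprime_iff_aeval_ne_zero_of_isAlgClosed (k := K) K]
    intro α
    by_cases hα : α = 0
    · left; simp [hα, zero_pow (by omega : n ≠ 0)]
    · right
      simp only [coe_aeval_eq_eval, eval_mul, eval_X, sg_eval]
      exact mul_ne_zero (mul_ne_zero (noroot α hα) (noroot _ (mul_ne_zero hq hα))) hα
  have d3 : (1 - X ^ n : K[X]) ∣ c := by
    apply cop.dvd_of_dvd_mul_left
    exact ⟨b * sg q a - sg q b * a, by linear_combination -h1⟩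
  by_contra hc0
  have := natDegree_le_of_dvd d3 hc0
  have h2 : (1 - X ^ n : K[X]).natDegree = n := by
    rw [← natDegree_neg, neg_sub, ← C_1, natDegree_X_pow_sub_C]
  omega

/-- words of length at most `l` -/
def WW (n : ℕ) : ℕ → Finset (List (Fin n))
  | 0 => {[]}
  | l + 1 => insert [] ((Finset.univ ×ˢ WW n l).image fun p => p.1 :: p.2)

lemma mem_WW {n : ℕ} : ∀ (l : ℕ) (w : List (Fin n)), w ∈ WW n l ↔ w.length ≤ l
  | 0, w => by simp [WW]
  | l + 1, [] => by simp [WW]
  | l + 1, i :: u => by simp [WW, mem_WW l]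

lemma sum_WW {n : ℕ} {M : Type} [AddCommMonoid M] (l : ℕ) (G : List (Fin n) → M) :
    ∑ w ∈ WW n (l + 1), G w = G [] + ∑ i, ∑ u ∈ WW n l, G (i :: u) := by
  rw [WW, Finset.sum_insert (by simp), Finset.sum_image (by
    intro x _ y _ h
    simp only [List.cons.injEq] at h
    exact Prod.ext h.1 h.2), Finset.sum_product]

lemma sum_WW_ext {n : ℕ} {M : Type} [AddCommMonoid M] (l : ℕ) (G : List (Fin n) → M)
    (h : ∀ w, l < w.length → G w = 0) : ∑ w ∈ WW n (l + 1), G w = ∑ w ∈ WW n l, G w := by
  symm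
  apply Finset.sum_subset
  · intro w hw; rw [mem_WW] at hw ⊢; omega
  · intro w _ hw; rw [mem_WW] at hw; exact h w (by omega)

theorem indep [IsAlgClosed K] {q : K} (hq : q ≠ 0) (hq1 : ∀ k, 1 ≤ k → q ^ k ≠ 1) {n : ℕ}
    (Y : List (Fin n) → PowerSeries K) (hY0 : Y [] = 1)
    (hY : ∀ i u, (1 - PowerSeries.X ^ n) * (Y (i :: u) - PowerSeries.rescale q (Y (i :: u)))
      = PowerSeries.X ^ ((i : ℕ) + 1) * Y u) :
    ∀ (l : ℕ) (r : List (Fin n) → K[X]), (∀ w, l < w.length → r w = 0) →
      ∑ w ∈ WW n l, (r w : PowerSeries K) * Y w = 0 → ∀ w, r w = 0 := by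
  classical
  intro l
  induction l with
  | zero =>
    intro r hr h w
    cases w with
    | nil => simpa [WW, hY0] using h
    | cons i u => exact hr _ (by simp)
  | succ l ih =>
    intro r
    induction hc : ((WW n (l + 1)).filter fun w => w.length = l + 1 ∧ r w ≠ 0).card
      using Nat.strong_induction_on generalizing r with
    | _ c ihc =>
    intro hr h
    by_cases hex : ∃ w0 : List (Fin n), w0.length = l + 1 ∧ r w0 ≠ 0
    swap
    · push Not at hex
      have hr' : ∀ w, l < w.length → r w = 0 := by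
        intro w hw
        by_cases h1 : w.length = l + 1
        · exact hex w h1
        · exact hr w (by omega)
      refine ih r hr' ?_
      rw [← sum_WW_ext l _ fun w hw => by simp [hr' w hw]]
      exact h
    exfalso
    obtain ⟨w0, hw0, hr0⟩ := hex
    obtain ⟨i0, u0, rfl⟩ : ∃ i0 u0, w0 = i0 :: u0 := by
      cases w0 with
      | nil => simp at hw0
      | cons a t => exact ⟨a, t, rfl⟩
    have hu0 : u0.length = l := by simpa using hw0
    have hn : 1 ≤ n := i0.pos
    set r0 := r (i0 :: u0) with hr0d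
    set r' : List (Fin n) → K[X] := fun u => (1 - X ^ n) * (r0 * sg q (r u) - sg q r0 * r u)
      - r0 * ∑ i : Fin n, sg q (r (i :: u)) * X ^ ((i : ℕ) + 1) with hr'
    have htop : ∀ u, l < u.length → r' u = (1 - X ^ n) * (r0 * sg q (r u) - sg q r0 * r u) := by
      intro u hu
      have : ∀ i : Fin n, r (i :: u) = 0 := fun i => hr _ (by simp; omega)
      simp [hr', this]
    have hX : (1 - X ^ n : K[X]) ≠ 0 := by
      intro h0
      have := congrArg (eval 0) h0
      simp [zero_pow (by omega : n ≠ 0)] at this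
    have hrel : ∑ w ∈ WW n (l + 1), (r' w : PowerSeries K) * Y w = 0 := by
      have h1 := congrArg (PowerSeries.rescale q) h
      rw [map_sum, map_zero] at h1
      simp only [map_mul, ← sg_coe] at h1
      have h2 : ∑ w ∈ WW n (l + 2), ((sg q (r w) : K[X]) : PowerSeries K) *
          ((1 - PowerSeries.X ^ n) * (Y w - PowerSeries.rescale q (Y w))) =
          ∑ u ∈ WW n (l + 1), (∑ i : Fin n, ((sg q (r (i :: u)) : K[X]) : PowerSeries K) *
            PowerSeries.X ^ ((i : ℕ) + 1)) * Y u := by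
        rw [sum_WW, hY0, map_one, sub_self, mul_zero, mul_zero, zero_add, Finset.sum_comm]
        refine Finset.sum_congr rfl fun u _ => ?_
        rw [Finset.sum_mul]
        exact Finset.sum_congr rfl fun i _ => by rw [hY, mul_assoc]
      rw [sum_WW_ext (l + 1) _ fun w hw => by simp [hr w hw]] at h2
      have h3 : ∑ w ∈ WW n (l + 1), (r' w : PowerSeries K) * Y w =
          (r0 : PowerSeries K) * (∑ w ∈ WW n (l + 1), ((sg q (r w) : K[X]) : PowerSeries K) *
            ((1 - PowerSeries.X ^ n) * (Y w - PowerSeries.rescale q (Y w))) -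
            ∑ u ∈ WW n (l + 1), (∑ i : Fin n, ((sg q (r (i :: u)) : K[X]) : PowerSeries K) *
            PowerSeries.X ^ ((i : ℕ) + 1)) * Y u)
          + (r0 : PowerSeries K) * (1 - PowerSeries.X ^ n) * (∑ w ∈ WW n (l + 1),
            ((sg q (r w) : K[X]) : PowerSeries K) * PowerSeries.rescale q (Y w))
          - ((sg q r0 : K[X]) : PowerSeries K) * (1 - PowerSeries.X ^ n) *
            ∑ w ∈ WW n (l + 1), (r w : PowerSeries K) * Y w := by
        rw [← Finset.sum_sub_distrib, Finset.mul_sum, Finset.mul_sum, Finset.mul_sum,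
          ← Finset.sum_add_distrib, ← Finset.sum_sub_distrib]
        refine Finset.sum_congr rfl fun w _ => ?_
        have hs : ((∑ i : Fin n, sg q (r (i :: w)) * X ^ ((i : ℕ) + 1) : K[X]) : PowerSeries K)
            = ∑ i : Fin n, ((sg q (r (i :: w)) : K[X]) : PowerSeries K) *
              PowerSeries.X ^ ((i : ℕ) + 1) := by
          rw [← Polynomial.coeToPowerSeries.ringHom_apply, map_sum]
          simp
        simp only [hr', Polynomial.coe_sub, Polynomial.coe_mul, Polynomial.coe_one,
          Polynomial.coe_pow, Polynomial.coe_X, hs]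
        ring
      rw [h3, h2, h1, h]; simp
    have hz : ∀ w, r' w = 0 := by
      refine ihc _ ?_ r' rfl (fun w hw => by rw [htop w (by omega), hr w hw]; simp) hrel
      rw [← hc]
      apply Finset.card_lt_card
      refine ⟨fun w hw => ?_, fun hsub => ?_⟩
      · simp only [Finset.mem_filter] at hw ⊢
        refine ⟨hw.1, hw.2.1, fun h0 => hw.2.2 ?_⟩
        rw [htop w (by omega), h0]; simp
      · have := hsub (Finset.mem_filter.mpr ⟨(mem_WW _ _).mpr hw0.le, hw0, hr0⟩)
        apply (Finset.mem_filter.mp this).2.2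
        rw [htop _ (by omega), ← hr0d]; ring
    have hcst : ∀ i : Fin n, ∃ c : K, r (i :: u0) = C c * r0 := by
      intro i
      apply invariant hq hq1 hr0
      have := hz (i :: u0)
      rw [htop _ (by simp; omega)] at this
      exact sub_eq_zero.mp ((mul_eq_zero.mp this).resolve_left hX)
    choose cc hcc using hcst
    have hfin := no_cobound hq hq1 hn (a0 := r u0) (c := ∑ i : Fin n, C (cc i) * X ^ (i : ℕ)) hr0
      (by
        refine lt_of_le_of_lt (natDegree_sum_le_of_forall_le (n := n - 1) _ _ fun i _ => ?_)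
          (by omega)
        refine (natDegree_C_mul_X_pow_le _ _).trans ?_
        have := i.2; omega)
      (by
        have := hz u0
        simp only [hr', hcc, map_mul, sg_C] at this
        rw [sub_eq_zero.mp this, Finset.mul_sum, Finset.mul_sum, Finset.mul_sum]
        exact Finset.sum_congr rfl fun i _ => by ring)
    have h1 := congrArg (fun p => coeff p i0) hfin
    simp only [finsetSum_coeff, coeff_C_mul_X_pow, coeff_zero, Fin.val_inj, Finset.sum_ite_eq,
      Finset.mem_univ, if_true] at h1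
    have h2 := hcc i0
    rw [h1, ← hr0d] at h2
    exact hr0 (by simpa using h2)

end Vale.Agent.P314
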