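import Mathlib

open Function Turing Turing.TM2 Turing.TM2.Stmt

namespace Vale.Agent.P314

abbrev G := Option Bool

inductive Prog (R : ℕ) : Type
  | inc (v : Fin R) : Prog R
  | dec (v : Fin R) : Prog R
  | emit (l : List G) : Prog R
  | copy (v w : Fin R) : Prog R
  | seq (p q : Prog R) : Prog R
  | ifz (v : Fin R) (p q : Prog R) : Prog R
  | whl (v : Fin R) (p : Prog R) : Prog R

@[ext] structure St (R : ℕ) where
  r : Fin R → ℕ
  o : List G

variable {R : ℕ}

def St.dec (v : Fin R) (s : St R) : St R := ⟨update s.r v (s.r v - 1), s.o⟩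

def run : Prog R → St R → St R
  | .inc v, s => ⟨update s.r v (s.r v + 1), s.o⟩
  | .dec v, s => s.dec v
  | .emit l, s => ⟨s.r, l ++ s.o⟩
  | .copy v w, s => ⟨update s.r w (s.r w + s.r v), s.o⟩
  | .seq p q, s => run q (run p s)
  | .ifz v p q, s => if s.r v = 0 then run p s else run q s
  | .whl v p, s => (fun s => run p (s.dec v))^[s.r v] s

def ic : Prog R → Fin R → Bool
  | .inc v, u => u = v
  | .dec _, _ => false
  | .emit _, _ => false
  | .copy _ w, u => u = w
  | .seq p q, u => ic p u || ic q u
  | .ifz _ p q, u => ic p u || ic q u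
  | .whl _ p, u => ic p u

def wr : Prog R → Fin R → Bool
  | .inc v, u => u = v
  | .dec v, u => u = v
  | .emit _, _ => false
  | .copy _ w, u => u = w
  | .seq p q, u => wr p u || wr q u
  | .ifz _ p q, u => wr p u || wr q u
  | .whl v p, u => u = v || wr p u

def wf : Prog R → Bool
  | .inc _ => true
  | .dec _ => true
  | .emit _ => true
  | .copy v w => v < w
  | .seq p q => wf p && wf q
  | .ifz _ p q => wf p && wf q
  | .whl v p => wf p && !(wr p v) && decide (∀ u, ic p u → v < u)

def incs {A : Type} [CommSemiring A] : Prog R → (Fin R → A) → Fin R → A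
  | .inc v, _, u => if u = v then 1 else 0
  | .dec _, _, _ => 0
  | .emit _, _, _ => 0
  | .copy v w, b, u => if u = w then b v else 0
  | .seq p q, b, u => incs p b u + incs q b u
  | .ifz _ p q, b, u => incs p b u + incs q b u
  | .whl v p, b, u => b v * incs p b u

def sc {A : Type} [CommSemiring A] : Prog R → (Fin R → A) → A
  | .inc _, _ => 1
  | .dec _, _ => 1
  | .emit _, _ => 1
  | .copy v _, b => 2 * b v + 2
  | .seq p q, b => sc p b + sc q b
  | .ifz _ p q, b => 1 + sc p b + sc q b
  | .whl v p, b => b v * (1 + sc p b) + 1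

lemma incs_map {A B : Type} [CommSemiring A] [CommSemiring B] (φ : A →+* B) (p : Prog R)
    (b : Fin R → A) (u : Fin R) : φ (incs p b u) = incs p (fun v => φ (b v)) u := by
  induction p <;> simp [incs, apply_ite φ, *]

lemma sc_map {A B : Type} [CommSemiring A] [CommSemiring B] (φ : A →+* B) (p : Prog R)
    (b : Fin R → A) : φ (sc p b) = sc p (fun v => φ (b v)) := by
  induction p <;> simp [sc, map_ofNat, *]

lemma incs_zero {A : Type} [CommSemiring A] (p : Prog R) (b : Fin R → A) (u : Fin R)
    (h : ic p u = false) : incs p b u = 0 := by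
  induction p <;> simp_all [incs, ic]

lemma incs_congr {A : Type} [CommSemiring A] (p : Prog R) (hp : wf p = true) (b b' : Fin R → A)
    (u : Fin R) (h : ∀ w, w < u → b w = b' w) : incs p b u = incs p b' u := by
  induction p with
  | inc => rfl
  | dec => rfl
  | emit => rfl
  | copy v w =>
    simp only [incs, wf, decide_eq_true_eq] at hp ⊢
    split_ifs with h1
    · exact h v (h1 ▸ hp)
    · rfl
  | seq p q ih1 ih2 => simp only [incs, wf, Bool.and_eq_true] at hp ⊢; rw [ih1 hp.1, ih2 hp.2]
  | ifz v p q ih1 ih2 => simp only [incs, wf, Bool.and_eq_true] at hp ⊢; rw [ih1 hp.1, ih2 hp.2]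
  | whl v p ih =>
    simp only [incs, wf, Bool.and_eq_true, decide_eq_true_eq] at hp ⊢
    by_cases hi : ic p u = true
    · rw [ih hp.1.1, h v (hp.2 u hi)]
    · rw [incs_zero p b u (by simpa using hi), incs_zero p b' u (by simpa using hi)]; simp

noncomputable def bP (p : Prog R) : ℕ → Fin R → Polynomial ℕ
  | 0 => fun _ => Polynomial.X
  | j + 1 => fun v => Polynomial.X + incs p (bP p j) v

lemma bP_stab (p : Prog R) (hp : wf p = true) :
    ∀ j, ∀ v : Fin R, (v : ℕ) < j → bP p (j + 1) v = bP p j v := by
  intro j
  induction j with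
  | zero => intro v hv; omega
  | succ j ih =>
    intro v hv
    show _ + incs p (bP p (j + 1)) v = _ + incs p (bP p j) v
    rw [incs_congr p hp _ _ v fun w hw => ih w (by have : (w : ℕ) < v := hw; omega)]

lemma bP_eval (p : Prog R) (hp : wf p = true) (x : ℕ) (v : Fin R) :
    x + incs p (fun v => (bP p R v).eval x) v = (bP p R v).eval x := by
  have := congrArg (Polynomial.evalRingHom x) (bP_stab p hp R v v.2)
  simp only [bP, map_add, incs_map] at this
  simpa using this

lemma run_nw (p : Prog R) (u : Fin R) (h : wr p u = false) : ∀ s, (run p s).r u = s.r u := by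
  induction p with
  | inc v => intro s; simp_all [run, wr]
  | dec v => intro s; simp_all [run, wr, St.dec]
  | emit => intro s; rfl
  | copy v w => intro s; simp_all [run, wr]
  | seq p q ih1 ih2 => intro s; simp_all [run, wr]
  | ifz v p q ih1 ih2 => intro s; simp only [run]; split_ifs <;> simp_all [wr]
  | whl v p ih =>
    intro s
    simp only [wr, Bool.or_eq_false_iff, decide_eq_false_iff_not] at h
    simp only [run]
    generalize s.r v = j
    induction j generalizing s with
    | zero => rfl
    | succ j ihj => rw [iterate_succ_apply, ihj, ih h.2]; simp [St.dec, h.1]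

lemma dec_le (v u : Fin R) (s : St R) : (s.dec v).r u ≤ s.r u := by
  simp only [St.dec, update_apply]; split_ifs with h
  · subst h; omega
  · rfl

lemma run_le (p : Prog R) (b : Fin R → ℕ) : ∀ s : St R, (∀ v, s.r v + incs p b v ≤ b v) →
    ∀ v, (run p s).r v ≤ s.r v + incs p b v := by
  induction p with
  | inc v => intro s _ u; simp only [run, incs, update_apply]; split_ifs <;> simp_all
  | dec v => intro s _ u; simpa [run, incs] using dec_le v u s
  | emit => intro s _ u; simp [run, incs]
  | copy v w =>
    intro s h u
    have := h v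
    simp only [run, incs, update_apply] at this ⊢; split_ifs <;> simp_all <;> omega
  | seq p q ih1 ih2 =>
    intro s h u
    simp only [run, incs] at h ⊢
    have h1 := ih1 s fun v => by have := h v; omega
    have h2 := ih2 (run p s) (fun v => by have := h v; have := h1 v; omega) u
    have := h1 u
    omega
  | ifz v p q ih1 ih2 =>
    intro s h u
    simp only [run, incs] at h ⊢
    have h1 := ih1 s (fun v => by have := h v; omega) u
    have h2 := ih2 s (fun v => by have := h v; omega) u
    split_ifs <;> omega
  | whl v p ih =>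
    intro s h u
    simp only [run, incs] at h ⊢
    have key : ∀ j (s : St R), (∀ u, s.r u + j * incs p b u ≤ b u) →
        ((fun s => run p (s.dec v))^[j] s).r u ≤ s.r u + j * incs p b u := by
      intro j
      induction j with
      | zero => intro s _; simp
      | succ j ihj =>
        intro s hs
        have h1 := ih (s.dec v) fun w => by
          have := hs w; have := dec_le v w s; rw [add_mul] at *; omega
        have h2 := ihj (run p (s.dec v)) fun w => by
          have := hs w; have := dec_le v w s; have := h1 w; rw [add_mul] at *; omega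
        have := h1 u; have := dec_le v u s
        rw [iterate_succ_apply, add_mul]; omega
    have hv : s.r v ≤ b v := by have := h v; omega
    have h3 : ∀ u, s.r v * incs p b u ≤ b v * incs p b u := fun u => Nat.mul_le_mul_right _ hv
    have := key (s.r v) s fun u => by have := h u; have := h3 u; omega
    have := h3 u
    omega

/-! the machine -/

abbrev KK (R : ℕ) := Fin R ⊕ Option Bool

def Lab : Prog R → Type
  | .inc _ => Unit
  | .dec _ => Unit
  | .emit _ => Unit
  | .copy _ _ => Bool
  | .seq p q => Lab p ⊕ Lab q
  | .ifz _ p q => Option (Lab p ⊕ Lab q)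
  | .whl _ p => Option (Lab p)

@[instance_reducible] def labFin : (p : Prog R) → Fintype (Lab p)
  | .inc _ => inferInstanceAs (Fintype Unit)
  | .dec _ => inferInstanceAs (Fintype Unit)
  | .emit _ => inferInstanceAs (Fintype Unit)
  | .copy _ _ => inferInstanceAs (Fintype Bool)
  | .seq p q => letI := labFin p; letI := labFin q; inferInstanceAs (Fintype (Lab p ⊕ Lab q))
  | .ifz _ p q =>
    letI := labFin p; letI := labFin q; inferInstanceAs (Fintype (Option (Lab p ⊕ Lab q)))
  | .whl _ p => letI := labFin p; inferInstanceAs (Fintype (Option (Lab p)))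

def entry : (p : Prog R) → Lab p
  | .inc _ => ()
  | .dec _ => ()
  | .emit _ => ()
  | .copy _ _ => false
  | .seq p _ => Sum.inl (entry p)
  | .ifz _ _ _ => none
  | .whl _ _ => none

abbrev SS (R : ℕ) (Λ : Type) := Stmt (fun _ : KK R => G) Λ Bool

def emitS {Λ : Type} : List G → SS R Λ → SS R Λ
  | [], q => q
  | a :: l, q => emitS l (push (.inr (some true)) (fun _ => a) q)

def jmp {Λ : Type} (l : Λ) : SS R Λ := load (fun _ => false) (goto fun _ => l)

def psh {Λ : Type} (k : KK R) (q : SS R Λ) : SS R Λ := push k (fun _ => none) q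

def tst {Λ : Type} (k : KK R) (q q' : SS R Λ) : SS R Λ :=
  pop k (fun _ x => x.isSome) (branch id q q')

def tpk {Λ : Type} (k : KK R) (q q' : SS R Λ) : SS R Λ :=
  peek k (fun _ x => x.isSome) (branch id q q')

def code {Λ : Type} : (p : Prog R) → (Lab p → Λ) → Λ → Lab p → SS R Λ
  | .inc v, _, c, _ => push (.inl v) (fun _ => none) (jmp c)
  | .dec v, _, c, _ => pop (.inl v) (fun _ _ => false) (jmp c)
  | .emit l, _, c, _ => emitS l (jmp c)
  | .copy v w, e, _, false =>
      tst (.inl v) (psh (.inr none) (psh (.inl w) (jmp (e false)))) (jmp (e true))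
  | .copy v _, e, c, true => tst (.inr none) (psh (.inl v) (jmp (e true))) (jmp c)
  | .seq p q, e, _, .inl l => code p (fun l => e (.inl l)) (e (.inr (entry q))) l
  | .seq _ q, e, c, .inr l => code q (fun l => e (.inr l)) c l
  | .ifz v p q, e, _, none =>
      tpk (.inl v) (jmp (e (some (.inr (entry q))))) (jmp (e (some (.inl (entry p)))))
  | .ifz _ p _, e, c, some (.inl l) => code p (fun l => e (some (.inl l))) c l
  | .ifz _ _ q, e, c, some (.inr l) => code q (fun l => e (some (.inr l))) c l
  | .whl v p, e, c, none => tst (.inl v) (jmp (e (some (entry p)))) (jmp c)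
  | .whl _ p, e, _, some l => code p (fun l => e (some l)) (e none) l

def stk (r : Fin R → ℕ) (t : ℕ) (i o : List G) : KK R → List G
  | .inl v => List.replicate (r v) none
  | .inr none => List.replicate t none
  | .inr (some false) => i
  | .inr (some true) => o

section
variable (r : Fin R → ℕ) (t : ℕ) (i o : List G)

@[simp] lemma stk_r (v : Fin R) : stk r t i o (.inl v) = List.replicate (r v) none := rfl
@[simp] lemma stk_t : stk r t i o (.inr none) = List.replicate t none := rfl
@[simp] lemma stk_i : stk r t i o (.inr (some false)) = i := rfl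
@[simp] lemma stk_o : stk r t i o (.inr (some true)) = o := rfl

@[simp] lemma up_r (v : Fin R) (x : ℕ) :
    update (stk r t i o) (.inl v) (List.replicate x none) = stk (update r v x) t i o := by
  funext k
  rcases k with u | _ | _ | _ <;> simp [update_apply, apply_ite (List.replicate · (none : G))]

@[simp] lemma up_r' (v : Fin R) (x : ℕ) :
    update (stk r t i o) (.inl v) (none :: List.replicate x none) =
      stk (update r v (x + 1)) t i o := up_r r t i o v (x + 1)

@[simp] lemma up_t (x : ℕ) :
    update (stk r t i o) (.inr none) (List.replicate x none) = stk r x i o := by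
  funext k
  rcases k with u | _ | _ | _ <;> simp [update_apply]

@[simp] lemma up_t' (x : ℕ) :
    update (stk r t i o) (.inr none) (none :: List.replicate x none) = stk r (x + 1) i o :=
  up_t r t i o (x + 1)

@[simp] lemma up_i (x : List G) : update (stk r t i o) (.inr (some false)) x = stk r t x o := by
  funext k
  rcases k with u | _ | _ | _ <;> simp [update_apply]

@[simp] lemma up_o (x : List G) : update (stk r t i o) (.inr (some true)) x = stk r t i x := by
  funext k
  rcases k with u | _ | _ | _ <;> simp [update_apply]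

end

abbrev CC (R : ℕ) (Λ : Type) := Cfg (fun _ : KK R => G) Λ Bool

def Reach {Λ : Type} (M : Λ → SS R Λ) (c c' : CC R Λ) (t : ℕ) : Prop :=
  ∃ k ≤ t, (flip bind (step M))^[k] (some c) = some c'

variable {Λ : Type} {M : Λ → SS R Λ}

lemma Reach.mono {c c' : CC R Λ} {t t' : ℕ} (h : Reach M c c' t) (ht : t ≤ t') :
    Reach M c c' t' := let ⟨k, hk, h⟩ := h; ⟨k, hk.trans ht, h⟩

lemma Reach.trans {c c' c'' : CC R Λ} {t t' : ℕ} (h : Reach M c c' t) (h' : Reach M c' c'' t') :
    Reach M c c'' (t + t') := by
  obtain ⟨k, hk, h⟩ := h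
  obtain ⟨k', hk', h'⟩ := h'
  exact ⟨k' + k, by omega, by rw [iterate_add_apply, h, h']⟩

lemma Reach.one {l : Λ} {S : KK R → List G} {c' : CC R Λ} (h : stepAux (M l) false S = c') :
    Reach M ⟨some l, false, S⟩ c' 1 := ⟨1, le_rfl, by rw [← h]; rfl⟩

lemma emitS_step (l : List G) : ∀ (q : SS R Λ) (b : Bool) (r : Fin R → ℕ) (t : ℕ) (i o : List G),
    stepAux (emitS l q) b (stk r t i o) = stepAux q b (stk r t i (l ++ o)) := by
  induction l with
  | nil => intros; rfl
  | cons a l ih => intros; simp [emitS, ih]

lemma head_rep (j : ℕ) : (List.replicate (j + 1) (none : G)).head?.isSome = true := rfl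

lemma sim_copyA {v w : Fin R} (hvw : v ≠ w) {l0 l1 : Λ} (o : List G)
    (h0 : M l0 = tst (.inl v) (psh (.inr none) (psh (.inl w) (jmp l0))) (jmp l1)) :
    ∀ j (r : Fin R → ℕ) t, r v = j → Reach M ⟨some l0, false, stk r t [] o⟩
        ⟨some l1, false, stk (update (update r v 0) w (r w + j)) (t + j) [] o⟩ (j + 1) := by
  intro j
  induction j with
  | zero =>
    intro r t h
    refine Reach.one ?_
    have : update (update r v 0) w (r w) = update r v 0 := by
      rw [update_eq_self_iff, update_of_ne hvw.symm]
    have h2 := up_r r t [] o v 0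
    simp only [List.replicate_zero] at h2
    simp [h0, jmp, tst, tpk, psh, h, this, h2]
  | succ j ih =>
    intro r t h
    have h1 : Reach M ⟨some l0, false, stk r t [] o⟩ ⟨some l0, false,
        stk (update (update r v j) w (r w + 1)) (t + 1) [] o⟩ 1 :=
      Reach.one (by simp [h0, jmp, tst, tpk, psh, h, head_rep, update_of_ne hvw.symm])
    have h2 := (h1.trans (ih _ _ (by simp [update_of_ne hvw]))).mono (t' := j + 1 + 1) (by omega)
    have e1 : update (update (update (update r v j) w (r w + 1)) v 0) w
        (update (update r v j) w (r w + 1) w + j) = update (update r v 0) w (r w + (j + 1)) := by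
      funext u; simp only [update_apply]; split_ifs <;> simp_all; omega
    rwa [e1, show t + 1 + j = t + (j + 1) by omega] at h2

lemma sim_copyB {v : Fin R} {l1 c : Λ} (o : List G)
    (h1 : M l1 = tst (.inr none) (psh (.inl v) (jmp l1)) (jmp c)) :
    ∀ j (r : Fin R → ℕ), Reach M ⟨some l1, false, stk r j [] o⟩
        ⟨some c, false, stk (update r v (r v + j)) 0 [] o⟩ (j + 1) := by
  intro j
  induction j with
  | zero =>
    intro r
    refine Reach.one ?_
    have h2 := up_t r 0 [] o 0
    simp only [List.replicate_zero] at h2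
    simp [h1, jmp, tst, tpk, psh, h2]
  | succ j ih =>
    intro r
    have h3 : Reach M ⟨some l1, false, stk r (j + 1) [] o⟩ ⟨some l1, false,
        stk (update r v (r v + 1)) j [] o⟩ 1 :=
      Reach.one (by simp [h1, jmp, tst, tpk, psh, head_rep])
    have h2 := (h3.trans (ih _)).mono (t' := j + 1 + 1) (by omega)
    rwa [update_idem, update_self, show r v + 1 + j = r v + (j + 1) by omega] at h2

lemma sim_ifz {v : Fin R} {l0 l1 l2 : Λ} (r : Fin R → ℕ) (o : List G)
    (h0 : M l0 = tpk (.inl v) (jmp l2) (jmp l1)) :
    Reach M ⟨some l0, false, stk r 0 [] o⟩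
      ⟨some (if r v = 0 then l1 else l2), false, stk r 0 [] o⟩ 1 := by
  refine Reach.one ?_
  split_ifs with h
  · simp [h0, jmp, tst, tpk, psh, h]
  · obtain ⟨j, hj⟩ := Nat.exists_eq_succ_of_ne_zero h
    simp [h0, jmp, tst, tpk, psh, hj, head_rep]

lemma sim_whl {v : Fin R} {l0 l1 l2 : Λ} (r : Fin R → ℕ) (o : List G)
    (h0 : M l0 = tst (.inl v) (jmp l2) (jmp l1)) :
    Reach M ⟨some l0, false, stk r 0 [] o⟩
      ⟨some (if r v = 0 then l1 else l2), false, stk (update r v (r v - 1)) 0 [] o⟩ 1 := by
  refine Reach.one ?_
  split_ifs with h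
  · have h2 := up_r r 0 [] o v 0
    rw [List.replicate_zero] at h2
    simp [h0, jmp, tst, tpk, psh, h, h2]
  · obtain ⟨j, hj⟩ := Nat.exists_eq_succ_of_ne_zero h
    simp [h0, jmp, tst, tpk, psh, hj, head_rep]

theorem sim (b : Fin R → ℕ) (p : Prog R) : wf p = true → ∀ (e : Lab p → Λ) (c : Λ),
    (∀ l, M (e l) = code p e c l) → ∀ s : St R, (∀ v, s.r v + incs p b v ≤ b v) →
    Reach M ⟨some (e (entry p)), false, stk s.r 0 [] s.o⟩
      ⟨some c, false, stk (run p s).r 0 [] (run p s).o⟩ (sc p b) := by
  induction p with
  | inc v => intro _ e c hM s _; exact Reach.one (by simp [hM, code, jmp, run])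
  | dec v => intro _ e c hM s _; exact Reach.one (by simp [hM, code, jmp, run, St.dec])
  | emit l => intro _ e c hM s _; exact Reach.one (by simp [hM, code, jmp, run, emitS_step])
  | copy v w =>
    intro hp e c hM s hb
    have hvw : v ≠ w := by simp only [wf, decide_eq_true_eq] at hp; exact hp.ne
    have h1 := sim_copyA hvw s.o (hM false) _ s.r 0 rfl
    rw [zero_add] at h1
    have h2 := (h1.trans (sim_copyB s.o (hM true) _ _)).mono (t' := sc (.copy v w) b) (by
      have := hb v; simp only [sc]; omega)
    have e1 : update (update (update s.r v 0) w (s.r w + s.r v)) v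
        (update (update s.r v 0) w (s.r w + s.r v) v + s.r v) = (run (.copy v w) s).r := by
      funext u; simp only [run, update_apply]; split_ifs <;> simp_all
    rw [e1] at h2
    exact h2
  | seq p q ih1 ih2 =>
    intro hp e c hM s hb
    simp only [wf, Bool.and_eq_true, incs] at hp hb
    have hb1 : ∀ v, s.r v + incs p b v ≤ b v := fun v => by have := hb v; omega
    exact (ih1 hp.1 (fun l => e (.inl l)) _ (fun l => hM (.inl l)) s hb1).trans
      (ih2 hp.2 (fun l => e (.inr l)) c (fun l => hM (.inr l)) (run p s) fun v => by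
        have := hb v; have := run_le p b s hb1 v; omega)
  | ifz v p q ih1 ih2 =>
    intro hp e c hM s hb
    simp only [wf, Bool.and_eq_true, incs] at hp hb
    have h1 := ih1 hp.1 (fun l => e (some (.inl l))) c (fun l => hM (some (.inl l))) s
      fun v => by have := hb v; omega
    have h2 := ih2 hp.2 (fun l => e (some (.inr l))) c (fun l => hM (some (.inr l))) s
      fun v => by have := hb v; omega
    have h0 := sim_ifz s.r s.o (hM none)
    simp only [run, sc]
    split_ifs at h0 ⊢ with h
    · exact (h0.trans h1).mono (by omega)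
    · exact (h0.trans h2).mono (by omega)
  | whl v p ih =>
    intro hp e c hM s hb
    simp only [wf, Bool.and_eq_true, incs, Bool.not_eq_true'] at hp hb
    have key : ∀ j (s : St R), s.r v = j → (∀ u, s.r u + j * incs p b u ≤ b u) →
        Reach M ⟨some (e none), false, stk s.r 0 [] s.o⟩ ⟨some c, false,
          stk ((fun s => run p (s.dec v))^[j] s).r 0 [] ((fun s => run p (s.dec v))^[j] s).o⟩
          (j * (1 + sc p b) + 1) := by
      intro j
      induction j with
      | zero =>
        intro s h _
        have h0 := sim_whl s.r s.o (hM none)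
        rw [if_pos h, update_eq_self_iff.mpr (by omega)] at h0
        exact h0.mono (by omega)
      | succ j ihj =>
        intro s h hs
        have hb1 : ∀ w, (s.dec v).r w + incs p b w ≤ b w := fun w => by
          have := hs w; have := dec_le v w s; rw [add_mul] at *; omega
        have h0 := sim_whl s.r s.o (hM none)
        rw [if_neg (by omega)] at h0
        have h1 := ih hp.1.1 (fun l => e (some l)) (e none) (fun l => hM (some l)) _ hb1
        have h2 := ihj (run p (s.dec v)) (by rw [run_nw p v hp.1.2]; simp [St.dec, h]) fun w => by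
          have := hs w; have := dec_le v w s; have := run_le p b _ hb1 w
          rw [add_mul] at *; omega
        exact ((h0.trans h1).trans h2).mono (by rw [add_mul j]; omega)
    have hv : s.r v ≤ b v := by have := hb v; omega
    refine (key _ s rfl fun u => ?_).mono ?_
    · have := hb u; have := Nat.mul_le_mul_right (incs p b u) hv; omega
    · simp only [sc]; have := Nat.mul_le_mul_right (1 + sc p b) hv; omega

end Vale.Agent.P314
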