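import Vale.Agent.P314.Machine

open Function Turing Turing.TM2 Turing.TM2.Stmt

namespace Vale.Agent.P314

variable {R : ℕ}

def encIn (x : ℕ × ℕ) : List G :=
  List.replicate x.1 (some true) ++ none :: List.replicate x.2 (some true)

def rd {Λ : Type} (q q' : SS R Λ) : SS R Λ :=
  pop (.inr (some false)) (fun _ x => decide (x = some (some true))) (branch id q q')

def mainM (p : Prog R) (v0 v1 : Fin R) : Lab p ⊕ Option Bool → SS R (Lab p ⊕ Option Bool)
  | .inl l => code p Sum.inl (.inr none) l
  | .inr none => halt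
  | .inr (some false) => rd (psh (.inl v0) (jmp (.inr (some false)))) (jmp (.inr (some true)))
  | .inr (some true) => rd (psh (.inl v1) (jmp (.inr (some true)))) (jmp (.inl (entry p)))

lemma sim_rd {Λ : Type} {M : Λ → SS R Λ} {v : Fin R} {l0 l1 : Λ}
    (h0 : M l0 = rd (psh (.inl v) (jmp l0)) (jmp l1)) (rest : List G)
    (hr : rest.head? ≠ some (some true)) :
    ∀ j (r : Fin R → ℕ), Reach M ⟨some l0, false, stk r 0 (List.replicate j (some true) ++ rest) []⟩
        ⟨some l1, false, stk (update r v (r v + j)) 0 rest.tail []⟩ (j + 1) := by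
  intro j
  induction j with
  | zero => intro r; exact Reach.one (by simp [h0, jmp, rd, hr])
  | succ j ih =>
    intro r
    have h3 : Reach M ⟨some l0, false, stk r 0 (List.replicate (j + 1) (some true) ++ rest) []⟩
        ⟨some l0, false, stk (update r v (r v + 1)) 0 (List.replicate j (some true) ++ rest) []⟩
        1 := Reach.one (by simp [h0, jmp, rd, psh, List.replicate_succ])
    have h2 := (h3.trans (ih _)).mono (t' := j + 1 + 1) (by omega)
    rwa [update_idem, update_self, show r v + 1 + j = r v + (j + 1) by omega] at h2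

def tmOf (p : Prog R) (v0 v1 : Fin R) : FinTM2 where
  K := KK R
  k₀ := .inr (some false)
  k₁ := .inr (some true)
  Γ _ := G
  Λ := Lab p ⊕ Option Bool
  main := .inr (some false)
  ΛFin := letI := labFin p; inferInstance
  σ := Bool
  initialState := false
  m := mainM p v0 v1

lemma reach_all (p : Prog R) (hp : wf p = true) {v0 v1 : Fin R} (hv : v0 ≠ v1) (x : ℕ × ℕ)
    (out : List G) (h : run p ⟨update (update 0 v0 x.1) v1 x.2, []⟩ = ⟨0, out⟩) :
    Reach (mainM p v0 v1) ⟨some (.inr (some false)), false, stk 0 0 (encIn x) []⟩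
      ⟨none, false, stk 0 0 [] out⟩
      ((Polynomial.X + 2 + sc p (bP p R)).eval (encIn x).length) := by
  have hl : (encIn x).length = x.1 + x.2 + 1 := by simp [encIn]; omega
  have h1 := sim_rd (M := mainM p v0 v1) (l0 := .inr (some false)) rfl
    (none :: List.replicate x.2 (some true)) (by simp) x.1 0
  have h2 := sim_rd (M := mainM p v0 v1) (l0 := .inr (some true)) rfl [] (by simp) x.2
    (update 0 v0 x.1)
  have h3 := sim (M := mainM p v0 v1) (fun v => (bP p R v).eval (encIn x).length) p hp Sum.inl
    (.inr none) (fun _ => rfl) ⟨update (update 0 v0 x.1) v1 x.2, []⟩ (fun v => by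
      refine le_of_le_of_eq (Nat.add_le_add_right ?_ _) (bP_eval p hp _ v)
      simp only [update_apply, hl, Pi.zero_apply]; split_ifs <;> omega)
  have h4 : Reach (mainM p v0 v1) ⟨some (.inr none), false, stk 0 0 [] out⟩
      ⟨none, false, stk 0 0 [] out⟩ 1 := Reach.one rfl
  rw [h] at h3
  simp only [List.tail_cons, Pi.zero_apply, zero_add, List.append_nil, List.tail_nil,
    update_of_ne hv.symm] at h1 h2
  refine (((h1.trans h2).trans h3).trans h4).mono ?_
  have := sc_map (Polynomial.evalRingHom (encIn x).length) p (bP p R)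
  simp only [Polynomial.coe_evalRingHom] at this
  simp only [Polynomial.eval_add, Polynomial.eval_X, Polynomial.eval_ofNat, this]
  omega

theorem poly_tm (p : Prog R) (hp : wf p = true) {v0 v1 : Fin R} (hv : v0 ≠ v1)
    (f : ℕ × ℕ → List G) (h : ∀ x, run p ⟨update (update 0 v0 x.1) v1 x.2, []⟩ = ⟨0, f x⟩) :
    ∃ M : TM2ComputableInPolyTime encIn id f, ∀ k, Finite (M.tm.Γ k) := by
  refine ⟨⟨⟨tmOf p v0 v1, Equiv.refl _, Equiv.refl _⟩, Polynomial.X + 2 + sc p (bP p R),
    fun x => ?_⟩, fun k => (inferInstance : Finite G)⟩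
  have H := reach_all p hp hv x (f x) (h x)
  have e1 : initList (tmOf p v0 v1) (List.map (Equiv.refl G).invFun (encIn x)) =
      ⟨some (.inr (some false)), false, stk 0 0 (encIn x) []⟩ := by
    simp only [initList, tmOf]
    congr 1
    funext k
    rcases k with u | _ | _ | _ <;> simp <;> rfl
  have e2 : haltList (tmOf p v0 v1) (List.map (Equiv.refl G).invFun (id (f x))) =
      ⟨none, false, stk 0 0 [] (f x)⟩ := by
    simp only [haltList, tmOf]
    congr 1
    funext k
    rcases k with u | _ | _ | _ <;> simp <;> rfl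
  refine ⟨⟨H.choose, ?_⟩, H.choose_spec.1⟩
  exact (congrArg (fun c => (flip bind (step (mainM p v0 v1)))^[H.choose] (some c)) e1).trans
    (H.choose_spec.2.trans (congrArg some e2.symm))

end Vale.Agent.P314
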