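import Vale.Agent.P314.Series

open PowerSeries

namespace Vale.Agent.P314

variable {F : Type} [Field F]

def Bd (d : ℕ) : Submodule F (PowerSeries F) where
  carrier := {x | ∀ l, d < l → coeff l x = 0}
  add_mem' ha hb l hl := by simp [ha l hl, hb l hl]
  zero_mem' l _ := by simp
  smul_mem' c x hx l hl := by simp [hx l hl]

lemma Bd_mono {d d' : ℕ} (h : d ≤ d') {x : PowerSeries F} (hx : x ∈ Bd d) : x ∈ Bd d' :=
  fun l hl => hx l (by omega)

noncomputable def fac (m : ℕ) : PowerSeries F := ∏ j ∈ Finset.range m, (1 - X ^ (j + 1))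

lemma fac_ne (m : ℕ) : (fac m : PowerSeries F) ≠ 0 := by
  refine Finset.prod_ne_zero_iff.mpr fun j _ h => ?_
  simpa using congrArg constantCoeff h

lemma fac_up {m : ℕ} {c : PowerSeries F} (h : fac m * c ∈ Bd (m ^ 2)) {k : ℕ} (hk : m ≤ k) :
    fac k * c ∈ Bd (k ^ 2) := by
  induction k, hk using Nat.le_induction with
  | base => exact h
  | succ k _ ih =>
    intro l hl
    rw [fac, Finset.prod_range_succ, mul_right_comm, mul_comm _ (1 - _), sub_mul, one_mul, map_sub,
      coeff_X_pow_mul']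
    have h1 := ih l (by nlinarith)
    have h2 := ih (l - (k + 1)) (by
      have : (k + 1) ^ 2 = k ^ 2 + (k + 1) + k := by ring
      omega)
    rw [fac] at h1 h2
    rw [h1, h2]; simp

def Good : Submodule F (RR F) where
  carrier := {y | ∀ m, fac m * coeff m y ∈ Bd (m ^ 2)}
  add_mem' ha hb m := by rw [map_add, mul_add]; exact Submodule.add_mem _ (ha m) (hb m)
  zero_mem' m := by simp
  smul_mem' c x hx m := by
    have : coeff m (c • x) = c • coeff m x := rfl
    rw [this, mul_smul_comm]; exact Submodule.smul_mem _ _ (hx m)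

lemma Good_one : (1 : RR F) ∈ Good := by
  intro m
  rw [coeff_one]
  split_ifs with h
  · subst h
    intro l hl
    simp [fac, coeff_one]; omega
  · simp

lemma Good_TT (n i : ℕ) {g : RR F} (hg : g ∈ Good) : TT n i g ∈ Good := by
  intro k
  rw [coeff_TT]
  rcases k with _ | k
  · simp [hh]
  · rw [fac, Finset.prod_range_succ, mul_assoc, ← mul_assoc _ (iv _), iv_mul (by omega), one_mul,
      coeff_mul, Finset.mul_sum]
    refine Submodule.sum_mem _ fun p hp => ?_
    rw [hh, coeff_mk]
    split_ifs with h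
    · rw [one_mul]
      have := Finset.HasAntidiagonal.mem_antidiagonal.mp hp
      exact Bd_mono (by nlinarith) (fac_up (hg p.2) (k := k) (by omega))
    · simp

lemma Good_ev {n : ℕ} (f : FreeAlgebra F (Fin n)) : ∀ g ∈ (Good : Submodule F (RR F)),
    ev f g ∈ Good := by
  induction f using FreeAlgebra.induction with
  | grade0 a => intro g hg; rw [AlgHom.commutes]; exact Submodule.smul_mem _ _ hg
  | grade1 i => intro g hg; simpa [ev] using Good_TT n i hg
  | add a b ha hb => intro g hg; rw [map_add]; exact Submodule.add_mem _ (ha g hg) (hb g hg)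
  | mul a b ha hb => intro g hg; rw [map_mul]; exact ha _ (hb g hg)

lemma Good_low {y : RR F} (hy : y ∈ Good) {m : ℕ} (h : coeff m y ≠ 0) :
    ∃ l ≤ m ^ 2, coeff l (coeff m y) ≠ 0 := by
  by_contra hc
  push Not at hc
  apply mul_ne_zero (fac_ne m) h
  ext l
  by_cases hl : m ^ 2 < l
  · simpa using hy m l hl
  · rw [coeff_mul, map_zero]
    refine Finset.sum_eq_zero fun p hp => ?_
    have := Finset.HasAntidiagonal.mem_antidiagonal.mp hp
    rw [hc p.2 (by omega), mul_zero]

/-- the 0/1 pattern -/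
def bit (n i k l m l' : ℕ) : Prop := m < k ∧ (k - m - 1) % n = i ∧ l' ≤ l ∧ k ∣ l - l'

instance (n i k l m l' : ℕ) : Decidable (bit n i k l m l') := by unfold bit; infer_instance

def Tm (F : Type) [Field F] (n N K : ℕ) (i : Fin n) : Matrix (Fin (N * K)) (Fin (N * K)) F :=
  fun r c => if bit n i (r / K) (r % K) (c / K) (c % K) then 1 else 0

noncomputable def pr (N K : ℕ) : RR F →ₗ[F] (Fin (N * K) → F) where
  toFun g r := coeff (r % K) (coeff (r / K) g)
  map_add' a b := by ext r; simp
  map_smul' c a := by ext r; simp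

lemma coeff_TT' (n i k l N K : ℕ) (hk : k < N) (hl : l < K) (g : RR F) :
    coeff l (coeff k (TT n i g)) = ∑ m ∈ Finset.range N, ∑ l' ∈ Finset.range K,
      (if bit n i k l m l' then 1 else 0) * coeff l' (coeff m g) := by
  have e1 : coeff k (hh n i * g) = ∑ m ∈ Finset.range N,
      if m < k ∧ (k - m - 1) % n = i then coeff m g else 0 := by
    rw [mul_comm, coeff_mul, Finset.Nat.sum_antidiagonal_eq_sum_range_succ
      (fun a b => coeff a g * coeff b (hh n i))]
    rw [← Finset.sum_subset (s₁ := Finset.range k.succ) (s₂ := Finset.range N)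
      (fun x hx => by simp at hx ⊢; omega) (fun x _ hx => by
        rw [if_neg]; simp at hx; omega)]
    refine Finset.sum_congr rfl fun m hm => ?_
    rw [hh, coeff_mk, mul_ite, mul_one, mul_zero]
    exact if_congr (by omega) rfl rfl
  have e2 : ∀ u : PowerSeries F, coeff l (iv k * u) = ∑ l' ∈ Finset.range K,
      if l' ≤ l ∧ k ∣ l - l' then coeff l' u else 0 := by
    intro u
    rw [mul_comm, coeff_mul, Finset.Nat.sum_antidiagonal_eq_sum_range_succ
      (fun a b => coeff a u * coeff b (iv k))]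
    rw [← Finset.sum_subset (s₁ := Finset.range l.succ) (s₂ := Finset.range K)
      (fun x hx => by simp at hx ⊢; omega) (fun x _ hx => by
        rw [if_neg]; simp at hx; omega)]
    refine Finset.sum_congr rfl fun m hm => ?_
    rw [iv, coeff_mk, mul_ite, mul_one, mul_zero]
    have : m ≤ l := by simp at hm; omega
    exact if_congr (by tauto) rfl rfl
  rw [coeff_TT, e1, Finset.mul_sum, map_sum]
  refine Finset.sum_congr rfl fun m _ => ?_
  rw [e2]
  refine Finset.sum_congr rfl fun l' _ => ?_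
  by_cases h1 : m < k ∧ (k - m - 1) % n = i <;> by_cases h2 : l' ≤ l ∧ k ∣ l - l'
  · rw [if_pos h1, if_pos h2, if_pos (show bit n i k l m l' from ⟨h1.1, h1.2, h2⟩), one_mul]
  · rw [if_neg h2, if_neg (show ¬ bit n i k l m l' from fun h => h2 h.2.2), zero_mul]
  · rw [if_neg h1, if_neg (show ¬ bit n i k l m l' from fun h => h1 ⟨h.1, h.2.1⟩)]; simp
  · rw [if_neg h2, if_neg (show ¬ bit n i k l m l' from fun h => h2 h.2.2), zero_mul]

lemma pr_TT {n : ℕ} (N K : ℕ) (i : Fin n) (g : RR F) :
    pr N K (TT n i g) = (Tm F n N K i).mulVec (pr N K g) := by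
  ext r
  have hK : 0 < K := Nat.pos_of_mul_pos_left (lt_of_le_of_lt (Nat.zero_le _) r.2)
  have h1 : (r : ℕ) / K < N := (Nat.div_lt_iff_lt_mul hK).mpr r.2
  show coeff (r % K) (coeff (r / K) (TT n i g)) = _
  rw [coeff_TT' n i _ _ N K h1 (Nat.mod_lt _ hK), Matrix.mulVec, dotProduct,
    ← finProdFinEquiv.sum_comp, Fintype.sum_prod_type, Finset.sum_range]
  refine Finset.sum_congr rfl fun m _ => ?_
  rw [Finset.sum_range]
  refine Finset.sum_congr rfl fun l' _ => ?_
  have a1 : ((finProdFinEquiv (m, l') : Fin (N * K)) : ℕ) / K = m := by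
    simp [Nat.add_mul_div_left _ _ hK, Nat.div_eq_of_lt l'.2]
  have a2 : ((finProdFinEquiv (m, l') : Fin (N * K)) : ℕ) % K = l' := by
    simp [Nat.mod_eq_of_lt l'.2]
  simp only [Tm, pr, LinearMap.coe_mk, AddHom.coe_mk, a1, a2]

lemma pr_ev {n : ℕ} (N K : ℕ) (f : FreeAlgebra F (Fin n)) : ∀ g : RR F,
    pr N K (ev f g) = (FreeAlgebra.lift F (Tm F n N K) f).mulVec (pr N K g) := by
  induction f using FreeAlgebra.induction with
  | grade0 a =>
    intro g
    rw [AlgHom.commutes, AlgHom.commutes, Algebra.algebraMap_eq_smul_one,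
      Algebra.algebraMap_eq_smul_one, Matrix.smul_mulVec, Matrix.one_mulVec]
    simp
  | grade1 i => intro g; simpa [ev] using pr_TT N K i g
  | add a b ha hb => intro g; simp [ha, hb, Matrix.add_mulVec]
  | mul a b ha hb => intro g; simp [ha, hb]

theorem hit {n s N K : ℕ} (hN : 3 * (n + 1) * (s + 1) ^ 3 ≤ N) (hK : N * N ≤ K)
    {f : FreeAlgebra F (Fin n)} (hs : Small f s) (hf : f ≠ 0) :
    FreeAlgebra.lift F (Tm F n N K) f ≠ 0 := by
  classical
  have h0 := ev_ne hf
  have hm : ∃ m < N, coeff m (ev f (1 : RR F)) ≠ 0 := by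
    rcases Nat.eq_zero_or_pos n with rfl | hn
    · have hsc : ∀ f : FreeAlgebra F (Fin 0), ∃ a, f = algebraMap F _ a := by
        intro f
        induction f using FreeAlgebra.induction with
        | grade0 a => exact ⟨a, rfl⟩
        | grade1 i => exact i.elim0
        | add a b ha hb => obtain ⟨x, rfl⟩ := ha; obtain ⟨y, rfl⟩ := hb; exact ⟨x + y, by simp⟩
        | mul a b ha hb => obtain ⟨x, rfl⟩ := ha; obtain ⟨y, rfl⟩ := hb; exact ⟨x * y, by simp⟩
      obtain ⟨a, rfl⟩ := hsc f
      have ha : a ≠ 0 := fun h => hf (by simp [h])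
      refine ⟨0, lt_of_lt_of_le (by positivity) hN, ?_⟩
      rw [AlgHom.commutes, Algebra.algebraMap_eq_smul_one]
      simpa using ha
    · obtain ⟨S, -, h2, h3, h4⟩ := hs {1} (by
        intro y hy
        rw [Finset.mem_singleton.mp hy]
        exact ⟨0, by simp, by simp⟩) 1 (Submodule.subset_span (by simp))
      obtain ⟨m, hm, h⟩ := zero_est (r := s + 1) hn (by omega) h3 (by simp at h2; omega) h4 h0
      exact ⟨m, by nlinarith [Nat.zero_le ((s + 1) ^ 3)], h⟩
  obtain ⟨m, hm, h⟩ := hm
  obtain ⟨l, hl, h'⟩ := Good_low (Good_ev f 1 Good_one) h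
  have hl' : l < K := by nlinarith
  intro hz
  have := congrFun (pr_ev N K f 1) (finProdFinEquiv (⟨m, hm⟩, ⟨l, hl'⟩))
  rw [hz, Matrix.zero_mulVec] at this
  apply h'
  simpa [pr, Nat.add_mul_div_left _ _ (by omega : 0 < K), Nat.div_eq_of_lt hl',
    Nat.mod_eq_of_lt hl'] using this

end Vale.Agent.P314
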