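import Vale.Agent.P314.Pack
import Vale.Agent.P314.Trunc

open Function

namespace Vale.Agent.P314

variable {R : ℕ}

lemma whl_ind (v : Fin R) (p : Prog R) (s : St R) (I : ℕ → St R) (hs : I (s.r v) = s)
    (h : ∀ j < s.r v, run p ((I (j + 1)).dec v) = I j) : run (.whl v p) s = I 0 := by
  have key : ∀ j ≤ s.r v, (fun s => run p (s.dec v))^[j] (I j) = I 0 := by
    intro j
    induction j with
    | zero => intro _; rfl
    | succ j ih => intro hj; rw [iterate_succ_apply, h j hj, ih (by omega)]
  have := key _ le_rfl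
  rw [hs] at this
  exact this

def skip : Prog R := .emit []
def clear (v : Fin R) : Prog R := .whl v skip
def sub (w v t : Fin R) : Prog R := .seq (.copy v t) (.whl t (.dec w))
def cd (a n x : Fin R) : Prog R := .whl a (.seq (.ifz x (.copy n x) skip) (.dec x))
def mulp (a b j c : Fin R) : Prog R := .seq (.copy a j) (.whl j (.copy b c))
def forp (B v : Fin R) (p : Prog R) : Prog R := .seq (.copy B v) (.whl v p)

lemma run_clear (v : Fin R) (r : Fin R → ℕ) (o : List G) :
    run (clear v) ⟨r, o⟩ = ⟨update r v 0, o⟩ :=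
  whl_ind v skip ⟨r, o⟩ (fun j => ⟨update r v j, o⟩) (by simp)
    (fun j _ => by simp [run, skip, St.dec])

lemma run_sub {w v t : Fin R} (h1 : w ≠ t) (r : Fin R → ℕ) (o : List G) (ht : r t = 0) :
    run (sub w v t) ⟨r, o⟩ = ⟨update r w (r w - r v), o⟩ := by
  have := whl_ind t (.dec w) ⟨update r t (r v), o⟩
    (fun j => ⟨update (update r t j) w (r w - (r v - j)), o⟩)
    (by simp [update_of_ne h1]) (fun j hj => by
      simp only [update_self] at hj
      ext u
      · simp only [run, St.dec, update_apply]; split_ifs <;> simp_all; omega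
      · simp [run, St.dec])
  rw [show update r t 0 = r from update_eq_self_iff.mpr ht.symm] at this
  simpa [sub, run, ht] using this

def cdv (n x a : ℕ) : ℕ := (fun x => (if x = 0 then n else x) - 1)^[a] x

lemma cdv_succ (n x a : ℕ) :
    cdv n x (a + 1) = (if cdv n x a = 0 then n else cdv n x a) - 1 :=
  iterate_succ_apply' _ _ _

lemma cdv_eq {n x : ℕ} (hx : x < n) (a : ℕ) : cdv n x a = 0 ↔ a % n = x := by
  have key : ∀ a, cdv n x a < n ∧ (cdv n x a + a) % n = x := by
    intro a
    induction a with
    | zero => exact ⟨hx, Nat.mod_eq_of_lt hx⟩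
    | succ a ih =>
      rw [cdv_succ]
      split_ifs with h
      · rw [h, zero_add] at ih
        refine ⟨by omega, ?_⟩
        rw [show n - 1 + (a + 1) = a + n by omega, Nat.add_mod_right, ih.2]
      · exact ⟨by omega, by rw [show cdv n x a - 1 + (a + 1) = cdv n x a + a by omega, ih.2]⟩
  obtain ⟨h1, h2⟩ := key a
  refine ⟨fun h => by rwa [h, zero_add] at h2, fun h => ?_⟩
  have h3 : cdv n x a + a ≡ 0 + a [MOD n] := by rw [zero_add, Nat.ModEq, h2, h]
  exact Nat.eq_zero_of_dvd_of_lt ((Nat.modEq_zero_iff_dvd).mp (Nat.ModEq.add_right_cancel' a h3)) h1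

lemma run_cd {a n x : Fin R} (h1 : a ≠ x) (h2 : n ≠ x) (h3 : n ≠ a) (r : Fin R → ℕ) (o : List G) :
    run (cd a n x) ⟨r, o⟩ = ⟨update (update r a 0) x (cdv (r n) (r x) (r a)), o⟩ :=
  whl_ind a _ ⟨r, o⟩ (fun j => ⟨update (update r a j) x (cdv (r n) (r x) (r a - j)), o⟩)
    (by simp [cdv]) (fun j hj => by
      rw [show r a - j = r a - (j + 1) + 1 by simp at hj; omega, cdv_succ]
      simp only [run, St.dec, skip, update_of_ne h1, update_of_ne h1.symm, update_self]
      split_ifs with h
      · ext u
        · simp only [update_apply]; split_ifs <;> simp_all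
        · simp
      · ext u
        · simp only [update_apply]; split_ifs <;> simp_all
        · simp)

lemma run_mulp {a b j c : Fin R} (h1 : b ≠ j) (h2 : b ≠ c) (h3 : j ≠ c) (r : Fin R → ℕ)
    (o : List G) (hj : r j = 0) :
    run (mulp a b j c) ⟨r, o⟩ = ⟨update r c (r c + r a * r b), o⟩ := by
  have := whl_ind j (.copy b c) ⟨update r j (r a), o⟩
    (fun i => ⟨update (update r j i) c (r c + (r a - i) * r b), o⟩)
    (by simp [update_of_ne h3.symm]) (fun i hi => by
      simp only [update_self] at hi
      ext u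
      · simp only [run, St.dec, update_apply]
        rw [show r a - i = r a - (i + 1) + 1 by omega, add_mul]
        split_ifs <;> simp_all; omega
      · simp [run, St.dec])
  rw [show update r j 0 = r from update_eq_self_iff.mpr hj.symm] at this
  simpa [mulp, run, hj] using this

lemma run_forp (B v : Fin R) (p : Prog R) (r : Fin R → ℕ) (o : List G) (hv : r v = 0)
    (f : ℕ → List G)
    (h : ∀ j < r B, ∀ o, run p ⟨update r v j, o⟩ = ⟨update r v j, f j ++ o⟩) :
    run (forp B v p) ⟨r, o⟩ = ⟨r, (List.range (r B)).flatMap f ++ o⟩ := by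
  have := whl_ind v p ⟨update r v (r B), o⟩
    (fun j => ⟨update r v j, (List.range' j (r B - j)).flatMap f ++ o⟩)
    (by simp) (fun j hj => by
      simp only [update_self] at hj
      rw [show r B - j = r B - (j + 1) + 1 by omega, List.range'_succ]
      simp [St.dec, h j hj])
  rw [show update r v 0 = r from update_eq_self_iff.mpr hv.symm] at this
  simpa [forp, run, hv, List.range_eq_range'] using this

lemma run_seq (p q : Prog R) (s : St R) : run (.seq p q) s = run q (run p s) := rfl

def bitp (e0 e1 : List G) : Prog 19 :=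
  .seq (.copy 12 16) <| .seq (sub 16 14 18) <| .ifz 16 (.emit e0) <|
    .seq (.dec 16) <| .seq (.copy 11 17) <| .seq (cd 16 0 17) <|
      .ifz 17
        (.seq (.copy 15 16) <| .seq (sub 16 13 18) <| .ifz 16
          (.seq (.copy 13 16) <| .seq (sub 16 15 18) <| .seq (cd 16 12 17) <|
            .ifz 17 (.emit e1) (.seq (clear 17) (.emit e0)))
          (.seq (clear 16) (.emit e0)))
        (.seq (clear 17) (.emit e0))

lemma run_bitp (e0 e1 : List G) (r : Fin 19 → ℕ) (o : List G) (h16 : r 16 = 0) (h17 : r 17 = 0)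
    (h18 : r 18 = 0) (hi : r 11 < r 0) :
    run (bitp e0 e1) ⟨r, o⟩ =
      ⟨r, (if bit (r 0) (r 11) (r 12) (r 13) (r 14) (r 15) then e1 else e0) ++ o⟩ := by
  have u16 : update r 16 0 = r := update_eq_self_iff.mpr h16.symm
  have u17 : update r 17 0 = r := update_eq_self_iff.mpr h17.symm
  have s1 : ∀ (v w : Fin 19) (x : ℕ), w ≠ 16 → run (sub 16 w 18) ⟨update r 16 x, o⟩ =
      ⟨update r 16 (x - r w), o⟩ := fun v w x hw => by
    rw [run_sub (by decide) _ _ (by simpa using h18)]; simp [update_of_ne hw]
  have c1 : ∀ v, run (.copy v 16) ⟨r, o⟩ = ⟨update r 16 (r v), o⟩ := fun v => by simp [run, h16]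
  have hdv : r 14 < r 12 → (cdv (r 12) 0 (r 13 - r 15) = 0 ↔ r 12 ∣ r 13 - r 15) := fun h => by
    rw [cdv_eq (by omega), Nat.dvd_iff_mod_eq_zero]
  have hmd := cdv_eq hi (r 12 - r 14 - 1)
  rw [bitp, run_seq, run_seq, c1, s1 0 _ _ (by decide), run]
  simp only [update_self]
  by_cases h1 : r 12 - r 14 = 0
  · rw [if_pos h1, h1, u16, if_neg (fun h => by have := h.1; omega)]; rfl
  have e2 : run (cd 16 0 17) (run (.copy 11 17) (run (.dec 16) ⟨update r 16 (r 12 - r 14), o⟩))
      = ⟨update r 17 (cdv (r 0) (r 11) (r 12 - r 14 - 1)), o⟩ := by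
    simp only [run, St.dec]
    rw [run_cd (by decide) (by decide) (by decide)]
    simp [h17, update_comm (show (17 : Fin 19) ≠ 16 by decide), u16]
  rw [if_neg h1, run_seq, run_seq, run_seq, e2, run]
  simp only [update_self]
  by_cases h2 : cdv (r 0) (r 11) (r 12 - r 14 - 1) = 0
  swap
  · rw [if_neg h2, run_seq, run_clear, update_idem, u17,
      if_neg (fun h => h2 (hmd.mpr h.2.1))]; rfl
  rw [if_pos h2, h2, u17, run_seq, run_seq, c1, s1 0 _ _ (by decide), run]
  simp only [update_self]
  by_cases h3 : r 15 - r 13 = 0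
  swap
  · rw [if_neg h3, run_seq, run_clear, update_idem, u16,
      if_neg (fun h => by have := h.2.2.1; omega)]; rfl
  rw [if_pos h3, h3, u16, run_seq, run_seq, run_seq, c1, s1 0 _ _ (by decide),
    run_cd (by decide) (by decide) (by decide), run]
  simp only [update_self, update_idem, u16, update_of_ne (show (12 : Fin 19) ≠ 16 by decide),
    update_of_ne (show (17 : Fin 19) ≠ 16 by decide), h17]
  by_cases h4 : cdv (r 12) 0 (r 13 - r 15) = 0
  · rw [if_pos h4, h4, u17, if_pos ⟨by omega, hmd.mp h2, by omega, (hdv (by omega)).mp h4⟩]; rfl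
  · rw [if_neg h4, run_seq, run_clear, update_idem, u17,
      if_neg (fun h => h4 ((hdv h.1).mpr h.2.2.2))]; rfl

def loops (e0 e1 : List G) : Prog 19 :=
  forp 0 11 <| forp 8 12 <| forp 10 13 <| forp 8 14 <| forp 10 15 <| bitp e0 e1

lemma run_loops (e0 e1 : List G) (r : Fin 19 → ℕ) (o : List G) (h : ∀ v, 11 ≤ v → r v = 0) :
    run (loops e0 e1) ⟨r, o⟩ = ⟨r, ((List.range (r 0)).flatMap fun i =>
      (List.range (r 8)).flatMap fun k => (List.range (r 10)).flatMap fun l =>
      (List.range (r 8)).flatMap fun m => (List.range (r 10)).flatMap fun l' =>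
      if bit (r 0) i k l m l' then e1 else e0) ++ o⟩ := by
  have h11 := h 11 (by decide)
  have h12 := h 12 (by decide)
  have h13 := h 13 (by decide)
  have h14 := h 14 (by decide)
  have h15 := h 15 (by decide)
  have h16 := h 16 (by decide)
  have h17 := h 17 (by decide)
  have h18 := h 18 (by decide)
  refine run_forp _ _ _ _ _ h11 _ fun i hi o => ?_
  refine (run_forp _ _ _ _ _ (by simpa using h12) _ fun k _ o => ?_).trans (by simp; rfl)
  refine (run_forp _ _ _ _ _ (by simpa using h13) _ fun l _ o => ?_).trans (by simp; rfl)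
  refine (run_forp _ _ _ _ _ (by simpa using h14) _ fun m _ o => ?_).trans (by simp; rfl)
  refine (run_forp _ _ _ _ _ (by simpa using h15) _ fun l' _ o => ?_).trans (by simp; rfl)
  rw [run_bitp _ _ _ _ (by simpa using h16) (by simpa using h17) (by simpa using h18)
    (by simpa using hi)]
  simp

def prog (e0 e1 : List G) : Prog 19 :=
  .seq (.copy 0 2) <| .seq (.copy 1 2) <| .seq (.inc 2) <| .seq (.inc 2) <| .seq (.inc 2) <|
  .seq (mulp 2 2 3 4) <| .seq (mulp 4 4 5 6) <| .seq (mulp 6 2 7 8) <| .seq (mulp 8 8 9 10) <|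
  .seq (loops e0 e1) <| .seq (.emit [none]) <|
  .seq (forp 8 12 <| forp 10 13 <| .emit [some true]) <|
  .seq (clear 0) <| .seq (clear 1) <| .seq (clear 2) <| .seq (clear 4) <| .seq (clear 6) <|
  .seq (clear 8) (clear 10)

lemma wf_prog (e0 e1 : List G) : wf (prog e0 e1) = true := by
  have : wf (prog [] []) = true := by decide
  exact this

def outp (e0 e1 : List G) (n N K : ℕ) : List G :=
  List.replicate (N * K) (some true) ++ none :: (List.range n).flatMap fun i =>
    (List.range N).flatMap fun k => (List.range K).flatMap fun l =>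
      (List.range N).flatMap fun m => (List.range K).flatMap fun l' =>
        if bit n i k l m l' then e1 else e0

lemma flat_rep (a : G) (K : ℕ) : ∀ N : ℕ,
    ((List.range N).flatMap fun _ => List.replicate K a) = List.replicate (N * K) a
  | 0 => by simp
  | N + 1 => by rw [List.range_succ, List.flatMap_append, flat_rep a K N]; simp [add_mul]

lemma run_prog (e0 e1 : List G) (n s : ℕ) :
    run (prog e0 e1) ⟨update (update 0 0 n) 1 s, []⟩ =
      ⟨0, outp e0 e1 n ((n + s + 3) ^ 5) ((n + s + 3) ^ 10)⟩ := by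
  have hun : ∀ (r : Fin 19 → ℕ) (o : List G), r 12 = 0 → r 13 = 0 →
      run (forp 8 12 <| forp 10 13 <| .emit [some true]) ⟨r, o⟩ =
        ⟨r, List.replicate (r 8 * r 10) (some true) ++ o⟩ := by
    intro r o h12 h13
    rw [← flat_rep]
    refine run_forp _ _ _ _ _ h12 _ fun k _ o => ?_
    refine (run_forp _ _ _ _ _ (by simpa using h13) (fun _ => [some true])
      fun l _ o => rfl).trans ?_
    have := flat_rep (some true) 1 (r 10)
    simp only [List.replicate_one, mul_one] at this
    simp [this]
  have e1 : ∀ q, run (.seq (.copy 0 2) <| .seq (.copy 1 2) <| .seq (.inc 2) <| .seq (.inc 2) <|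
      .seq (.inc 2) q) ⟨update (update (0 : Fin 19 → ℕ) 0 n) 1 s, []⟩ =
      run q ⟨update (update (update 0 0 n) 1 s) 2 (n + s + 3), []⟩ := by
    intro q; simp [run]
  rw [prog, e1, run_seq, run_mulp (by decide) (by decide) (by decide) _ _ (by simp),
    run_seq, run_mulp (by decide) (by decide) (by decide) _ _ (by simp),
    run_seq, run_mulp (by decide) (by decide) (by decide) _ _ (by simp),
    run_seq, run_mulp (by decide) (by decide) (by decide) _ _ (by simp),
    run_seq, run_loops _ _ _ _ (by intro v hv; fin_cases v <;> simp at hv ⊢),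
    run_seq, run, run_seq, hun _ _ (by simp) (by simp)]
  simp only [run_seq, run_clear]
  generalize n + s + 3 = x
  have a1 : x * x * (x * x) * x = x ^ 5 := by ring
  have a2 : x ^ 5 * x ^ 5 = x ^ 10 := by ring
  ext1
  · funext v; fin_cases v <;> simp
  · simp [outp, a1, a2]

lemma flat_mul {α : Type} (g : ℕ → List α) (K : ℕ) : ∀ N : ℕ, (List.range (N * K)).flatMap g =
    (List.range N).flatMap fun k => (List.range K).flatMap fun l => g (k * K + l)
  | 0 => by simp
  | N + 1 => by
    rw [List.range_succ, List.flatMap_append, ← flat_mul g K N, add_mul, one_mul, List.range_add,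
      List.flatMap_append]
    simp [List.flatMap_map]

lemma flat_fin {α : Type} (g : ℕ → List α) (n : ℕ) :
    ((List.finRange n).flatMap fun i : Fin n => g i) = (List.range n).flatMap g := by
  rw [← List.map_coe_finRange_eq_range, List.flatMap_map]

lemma flat_div {α : Type} (g : ℕ → ℕ → List α) (N K : ℕ) :
    ((List.finRange (N * K)).flatMap fun r : Fin (N * K) => g (r / K) (r % K)) =
    (List.range N).flatMap fun k => (List.range K).flatMap fun l => g k l := by
  rw [flat_fin (fun r => g (r / K) (r % K)), flat_mul]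
  refine List.flatMap_congr fun k _ => List.flatMap_congr fun l hl => ?_
  have hl := List.mem_range.mp hl
  rw [mul_comm, Nat.mul_add_div (by omega), Nat.mul_add_mod, Nat.div_eq_of_lt hl,
    Nat.mod_eq_of_lt hl, add_zero]

lemma outp_eq {F : Type} [Field F] (E : F → List G) (n N K : ℕ) :
    outp (E 0) (E 1) n N K = List.replicate (N * K) (some true) ++ none ::
      (List.finRange n).flatMap fun i => (List.finRange (N * K)).flatMap fun r =>
        (List.finRange (N * K)).flatMap fun c => E (Tm F n N K i r c) := by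
  unfold outp
  congr 2
  rw [← flat_fin]
  refine List.flatMap_congr fun i _ => ?_
  rw [← flat_div]
  refine List.flatMap_congr fun r _ => ?_
  rw [← flat_div]
  refine List.flatMap_congr fun c _ => ?_
  rw [Tm, apply_ite E]

end Vale.Agent.P314
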