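import Vale.Agent.P314.Indep

open PowerSeries

namespace Vale.Agent.P314

variable {F : Type} [Field F]

abbrev RR (F : Type) [Field F] := PowerSeries (PowerSeries F)

noncomputable def sig : RR F →+* RR F := rescale (X : PowerSeries F)

noncomputable def hh (n i : ℕ) : RR F := mk fun k => if 1 ≤ k ∧ (k - 1) % n = i then 1 else 0

noncomputable def iv (k : ℕ) : PowerSeries F := mk fun l => if k ∣ l then 1 else 0

noncomputable def TT (n i : ℕ) : Module.End F (RR F) where
  toFun g := mk fun k => iv k * coeff k (hh n i * g)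
  map_add' a b := by ext1 k; simp [mul_add]
  map_smul' c a := by ext1 k; simp

lemma coeff_TT (n i k : ℕ) (g : RR F) : coeff k (TT n i g) = iv k * coeff k (hh n i * g) := by
  simp [TT]

lemma hh_mul {n i : ℕ} (hi : i < n) : (1 - X ^ n) * (hh n i : RR F) = X ^ (i + 1) := by
  ext1 k
  rw [sub_mul, one_mul, map_sub, coeff_X_pow_mul', coeff_X_pow]
  simp only [hh, coeff_mk]
  rcases lt_trichotomy k n with h | h | h
  · rw [if_neg (by omega : ¬ n ≤ k), sub_zero, Nat.mod_eq_of_lt (by omega : k - 1 < n)]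
    exact if_congr (by omega) rfl rfl
  · subst h
    rw [if_pos le_rfl, Nat.mod_eq_of_lt (by omega : k - 1 < k), if_neg (by omega : ¬ (1 ≤ k - k ∧
      (k - k - 1) % k = i)), sub_zero]
    exact if_congr (by omega) rfl rfl
  · have : (k - 1) % n = (k - n - 1) % n := by
      rw [show k - 1 = (k - n - 1) + n by omega, Nat.add_mod_right]
    rw [if_pos h.le, if_neg (by omega : ¬ k = i + 1), this, sub_eq_zero]
    exact if_congr (by omega) rfl rfl

lemma iv_mul {k : ℕ} (hk : 1 ≤ k) : (1 - X ^ k) * (iv k : PowerSeries F) = 1 := by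
  ext l
  rw [sub_mul, one_mul, map_sub, coeff_X_pow_mul', coeff_one]
  simp only [iv, coeff_mk]
  by_cases h : k ≤ l
  · rw [if_pos h, if_neg (by omega : ¬ l = 0), sub_eq_zero]
    exact if_congr (Nat.dvd_sub_iff_left h dvd_rfl).symm rfl rfl
  · rw [if_neg h, sub_zero]
    refine if_congr ⟨fun hd => ?_, fun h0 => h0 ▸ dvd_zero k⟩ rfl rfl
    exact Nat.eq_zero_of_dvd_of_lt hd (by omega)

lemma TT_rel (n i : ℕ) (g : RR F) : TT n i g - sig (TT n i g) = hh n i * g := by
  ext1 k
  rw [map_sub, sig, coeff_rescale, coeff_TT]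
  rcases Nat.eq_zero_or_pos k with rfl | hk
  · simp [hh]
  · have := iv_mul (F := F) hk
    linear_combination coeff k (hh n i * g) * this

lemma TT_rel' {n i : ℕ} (hi : i < n) (g : RR F) :
    (1 - X ^ n) * (TT n i g - sig (TT n i g)) = X ^ (i + 1) * g := by
  rw [TT_rel, ← mul_assoc, hh_mul hi]

noncomputable def ev {n : ℕ} : FreeAlgebra F (Fin n) →ₐ[F] Module.End F (RR F) :=
  FreeAlgebra.lift F fun i : Fin n => TT n i

noncomputable def yw {n : ℕ} : List (Fin n) → RR F
  | [] => 1
  | i :: u => TT n i (yw u)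

noncomputable def word {n : ℕ} (w : List (Fin n)) : FreeAlgebra F (Fin n) :=
  (w.map (FreeAlgebra.ι F)).prod

lemma ev_word {n : ℕ} : ∀ w : List (Fin n), ev (word w : FreeAlgebra F (Fin n)) 1 = yw w
  | [] => by simp [word, yw]
  | i :: u => by
    have := ev_word u
    simp only [word, List.map_cons, List.prod_cons, map_mul, Module.End.mul_apply, yw] at this ⊢
    rw [this]; simp [ev]

lemma mem_span_word {n : ℕ} (f : FreeAlgebra F (Fin n)) :
    f ∈ Submodule.span F (Set.range (word (F := F) (n := n))) := by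
  induction f using FreeAlgebra.induction with
  | grade0 a =>
    rw [Algebra.algebraMap_eq_smul_one]
    exact Submodule.smul_mem _ _ (Submodule.subset_span ⟨[], by simp [word]⟩)
  | grade1 i => exact Submodule.subset_span ⟨[i], by simp [word]⟩
  | add a b ha hb => exact Submodule.add_mem _ ha hb
  | mul a b ha hb =>
    have := Submodule.mul_mem_mul ha hb
    rw [Submodule.span_mul_span] at this
    refine Submodule.span_mono ?_ this
    rintro _ ⟨_, ⟨u, rfl⟩, _, ⟨v, rfl⟩, rfl⟩
    exact ⟨u ++ v, by simp [word]⟩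

lemma ev_ne {n : ℕ} {f : FreeAlgebra F (Fin n)} (hf : f ≠ 0) : ev f 1 ≠ 0 := by
  classical
  intro h
  obtain ⟨c, rfl⟩ := Finsupp.mem_span_range_iff_exists_finsupp.mp (mem_span_word f)
  let K := AlgebraicClosure (FractionRing (PowerSeries F))
  let φ : PowerSeries F →+* K :=
    (algebraMap (FractionRing (PowerSeries F)) K).comp (algebraMap _ _)
  have hφ : Function.Injective φ :=
    (algebraMap (FractionRing (PowerSeries F)) K).injective.comp (IsFractionRing.injective _ _)
  have hq : φ X ≠ 0 := by rw [map_ne_zero_iff φ hφ]; exact X_ne_zero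
  have hq1 : ∀ k, 1 ≤ k → φ X ^ k ≠ 1 := by
    intro k hk h1
    rw [← map_pow, ← map_one φ] at h1
    have := congrArg constantCoeff (hφ h1)
    simp [zero_pow (by omega : k ≠ 0)] at this
  set l := c.support.sup List.length with hl
  have hsub : c.support ⊆ WW n l := fun w hw => (mem_WW _ _).mpr (Finset.le_sup hw)
  have h1 : ∑ w ∈ WW n l, c w • (yw w : RR F) = 0 := by
    rw [Finsupp.sum, map_sum, LinearMap.sum_apply] at h
    simp only [map_smul, LinearMap.smul_apply, ev_word] at h
    rw [← h]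
    exact (Finset.sum_subset hsub fun w _ hw => by simp [Finsupp.notMem_support_iff.mp hw]).symm
  have := indep hq hq1 (fun w : List (Fin n) => map φ (yw w)) (by simp [yw])
    (fun i u => by
      have := congrArg (map φ) (TT_rel' i.2 (yw u : RR F))
      simpa [sig, ← rescale_map, yw] using this)
    l (fun w => Polynomial.C (φ (C (c w))))
    (fun w hw => by
      have : w ∉ c.support := fun hw' => by
        have := (mem_WW _ _).mp (hsub hw'); omega
      simp [Finsupp.notMem_support_iff.mp this])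
    (by
      have := congrArg (map φ) h1
      rw [map_sum, map_zero] at this
      rw [← this]
      refine Finset.sum_congr rfl fun w _ => ?_
      have e : c w • (yw w : RR F) = C (C (c w)) * yw w := by
        ext1 k; simp [smul_eq_C_mul]
      rw [e]; simp)
  apply hf
  have hc : c = 0 := by
    ext w
    have h2 := this w
    rw [Polynomial.C_eq_zero, map_eq_zero_iff φ hφ] at h2
    simpa using congrArg constantCoeff h2
  simp [hc]

/-- closed finite families -/
def Cl (n : ℕ) (S : Finset (RR F)) : Prop :=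
  ∀ y ∈ S, ∃ w : Fin n → RR F, (∀ i, w i ∈ Submodule.span F (S : Set (RR F))) ∧
    (1 - X ^ n) * (y - sig y) = ∑ i : Fin n, X ^ ((i : ℕ) + 1) * w i

def Small {n : ℕ} (f : FreeAlgebra F (Fin n)) (s : ℕ) : Prop :=
  ∀ S : Finset (RR F), Cl n S → ∀ y ∈ Submodule.span F (S : Set (RR F)),
    ∃ S' : Finset (RR F), S ⊆ S' ∧ S'.card ≤ S.card + s ∧ Cl n S' ∧
      ev f y ∈ Submodule.span F (S' : Set (RR F))

lemma Small.mono {n : ℕ} {f : FreeAlgebra F (Fin n)} {s s' : ℕ} (h : Small f s) (hs : s ≤ s') :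
    Small f s' := fun S hS y hy =>
  let ⟨S', h1, h2, h3⟩ := h S hS y hy
  ⟨S', h1, by omega, h3⟩

lemma Small.const {n : ℕ} (a : F) : Small (algebraMap F (FreeAlgebra F (Fin n)) a) 0 :=
  fun S hS y hy => ⟨S, subset_rfl, le_rfl, hS, by
    rw [AlgHom.commutes]; exact Submodule.smul_mem _ _ hy⟩

lemma Small.var {n : ℕ} (i : Fin n) : Small (FreeAlgebra.ι F i) 1 := by
  classical
  intro S hS y hy
  have hm : Submodule.span F (S : Set (RR F)) ≤
      Submodule.span F ((insert (TT n i y) S : Finset (RR F)) : Set (RR F)) :=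
    Submodule.span_mono (by simp)
  refine ⟨insert (TT n i y) S, Finset.subset_insert _ _, Finset.card_insert_le _ _, ?_, ?_⟩
  · intro x hx
    rcases Finset.mem_insert.mp hx with rfl | hx
    · refine ⟨Pi.single i y, fun j => ?_, ?_⟩
      · by_cases hj : j = i
        · subst hj; simpa using hm hy
        · simp [hj]
      · rw [TT_rel' i.2, Finset.sum_eq_single i] <;> simp +contextual
    · obtain ⟨w, hw, h⟩ := hS x hx
      exact ⟨w, fun j => hm (hw j), h⟩
  · exact Submodule.subset_span (by simp [ev])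

lemma Small.add {n : ℕ} {f g : FreeAlgebra F (Fin n)} {s s' : ℕ} (hf : Small f s)
    (hg : Small g s') : Small (f + g) (s + s') := by
  intro S hS y hy
  obtain ⟨S1, a1, a2, a3, a4⟩ := hf S hS y hy
  obtain ⟨S2, b1, b2, b3, b4⟩ := hg S1 a3 y (Submodule.span_mono a1 hy)
  refine ⟨S2, a1.trans b1, by omega, b3, ?_⟩
  rw [map_add]
  exact Submodule.add_mem _ (Submodule.span_mono b1 a4) b4

lemma Small.mul {n : ℕ} {f g : FreeAlgebra F (Fin n)} {s s' : ℕ} (hf : Small f s)
    (hg : Small g s') : Small (f * g) (s + s') := by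
  intro S hS y hy
  obtain ⟨S1, a1, a2, a3, a4⟩ := hg S hS y hy
  obtain ⟨S2, b1, b2, b3, b4⟩ := hf S1 a3 _ a4
  refine ⟨S2, a1.trans b1, by omega, b3, ?_⟩
  rw [map_mul]
  exact b4

open Classical in
noncomputable def MM (S : Finset (RR F)) (d e : ℕ) : Submodule F (RR F) :=
  Submodule.span F (((Finset.range (d + 1) ×ˢ Finset.range (e + 1) ×ˢ S).image
    fun p => X ^ p.1 * C (X ^ p.2.1) * p.2.2 : Finset (RR F)) : Set (RR F))

lemma MM_gen {S : Finset (RR F)} {d e a b : ℕ} (ha : a ≤ d) (hb : b ≤ e) {y : RR F}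
    (hy : y ∈ Submodule.span F (S : Set (RR F))) : X ^ a * C (X ^ b) * y ∈ MM S d e := by
  induction hy using Submodule.span_induction with
  | zero => simp
  | add x y _ _ hx hy => rw [mul_add]; exact Submodule.add_mem _ hx hy
  | smul c x _ hx => rw [mul_smul_comm]; exact Submodule.smul_mem _ _ hx
  | mem x hx =>
    refine Submodule.subset_span ?_
    simp only [Finset.coe_image, Set.mem_image]
    exact ⟨(a, b, x), by simp; exact ⟨by omega, by omega, hx⟩, rfl⟩

lemma MM_ind {S : Finset (RR F)} {d e : ℕ} (P : Submodule F (RR F)) (L : RR F →ₗ[F] RR F)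
    (h : ∀ a ≤ d, ∀ b ≤ e, ∀ y ∈ S, L (X ^ a * C (X ^ b) * y) ∈ P) {x : RR F}
    (hx : x ∈ MM S d e) : L x ∈ P := by
  have : MM S d e ≤ P.comap L := by
    refine Submodule.span_le.mpr ?_
    intro x hx
    simp only [Finset.coe_image, Set.mem_image] at hx
    obtain ⟨⟨a, b, y⟩, hp, rfl⟩ := hx
    simp at hp
    exact h a (by omega) b (by omega) y hp.2.2
  exact this hx

lemma MM_shift {S : Finset (RR F)} {d e d' e' a b : ℕ} {x : RR F} (hx : x ∈ MM S d e)
    (h1 : d + a ≤ d') (h2 : e + b ≤ e') : X ^ a * C (X ^ b) * x ∈ MM S d' e' := by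
  refine MM_ind _ (LinearMap.mulLeft F (X ^ a * C (X ^ b))) (fun a' ha b' hb y hy => ?_) hx
  have := MM_gen (S := S) (a := a' + a) (b := b' + b) (d := d') (e := e') (by omega) (by omega)
    (Submodule.subset_span hy)
  convert this using 1
  simp only [LinearMap.mulLeft_apply, pow_add, map_mul]; ring

noncomputable def stepL (n : ℕ) : RR F →ₗ[F] RR F where
  toFun x := (1 - X ^ n) * sig x
  map_add' a b := by rw [map_add, mul_add]
  map_smul' c a := by
    have : sig (c • a) = c • sig a := by ext1 k; simp [sig]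
    rw [this, mul_smul_comm]; rfl

lemma MM_step {n : ℕ} {S : Finset (RR F)} (hS : Cl n S) {d e : ℕ} {x : RR F}
    (hx : x ∈ MM S d e) : stepL n x ∈ MM S (d + n) (e + d) := by
  refine MM_ind _ _ (fun a ha b hb y hy => ?_) hx
  obtain ⟨w, hw, h⟩ := hS y hy
  have hX : sig (X : RR F) = C X * X := by simp [sig, rescale_X]
  have hC : ∀ u : PowerSeries F, sig (C u : RR F) = C u := by
    intro u; ext1 k
    rw [sig, coeff_rescale, coeff_C]; split_ifs with h <;> simp [h]
  have e1 : stepL n (X ^ a * C (X ^ b) * y) = X ^ a * C (X ^ (b + a)) * y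
      - X ^ (a + n) * C (X ^ (b + a)) * y
      - ∑ i : Fin n, X ^ (a + ((i : ℕ) + 1)) * C (X ^ (b + a)) * w i := by
    have e2 : ∑ i : Fin n, X ^ (a + ((i : ℕ) + 1)) * C (X ^ (b + a)) * w i
        = X ^ a * C (X ^ (b + a)) * ∑ i : Fin n, X ^ ((i : ℕ) + 1) * w i := by
      rw [Finset.mul_sum]
      exact Finset.sum_congr rfl fun i _ => by rw [pow_add]; ring
    rw [e2, ← h]
    simp only [stepL, LinearMap.coe_mk, AddHom.coe_mk, map_mul, map_pow, hX, hC, pow_add]
    ring
  rw [e1]
  refine Submodule.sub_mem _ (Submodule.sub_mem _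
    (MM_gen (by omega) (by omega) (Submodule.subset_span hy))
    (MM_gen (by omega) (by omega) (Submodule.subset_span hy)))
    (Submodule.sum_mem _ fun i _ => MM_gen (by have := i.2; omega) (by omega) (hw i))

lemma MM_rank (S : Finset (RR F)) (d e : ℕ) :
    Module.finrank F (MM S d e) ≤ (d + 1) * ((e + 1) * S.card) := by
  classical
  refine (finrank_span_finset_le_card _).trans (Finset.card_image_le.trans ?_)
  simp

lemma zero_est {n r : ℕ} (hn : 1 ≤ n) (hr : 1 ≤ r) {S : Finset (RR F)} (hS : Cl n S)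
    (hc : S.card ≤ r) {y : RR F} (hy : y ∈ Submodule.span F (S : Set (RR F))) (hy0 : y ≠ 0) :
    ∃ m < 3 * n * r ^ 3, coeff m y ≠ 0 := by
  classical
  set m := y.order.toNat with hm
  have hm1 : coeff m y ≠ 0 := coeff_order hy0
  have hm2 : ∀ k < m, coeff k y = 0 := fun k hk => coeff_of_lt_order_toNat k hk
  refine ⟨m, ?_, hm1⟩
  by_contra hbig
  push Not at hbig
  let u : ℕ → RR F := fun j => (stepL n)^[j] y
  have hu : ∀ j, u j ∈ MM S (j * n) (n * j ^ 2) := by
    intro j
    induction j with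
    | zero => simpa [u] using MM_gen (a := 0) (b := 0) (d := 0) (e := 0) le_rfl le_rfl hy
    | succ j ih =>
      have := MM_shift (a := 0) (b := 0) (MM_step hS ih) (d' := (j + 1) * n)
        (e' := n * (j + 1) ^ 2) (by nlinarith) (by nlinarith)
      simpa [u, Function.iterate_succ_apply'] using this
  have hlow : ∀ j, (∀ k < m, coeff k (u j) = 0) ∧ coeff m (u j) = X ^ (j * m) * coeff m y := by
    intro j
    induction j with
    | zero => simpa [u] using hm2
    | succ j ih =>
      have e : ∀ k ≤ m, coeff k (u (j + 1)) = X ^ k * coeff k (u j) := by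
        intro k hk
        have hu1 : u (j + 1) = (1 - X ^ n) * sig (u j) := by
          show (stepL n)^[j + 1] y = _
          rw [Function.iterate_succ_apply']; rfl
        rw [hu1, sub_mul, one_mul, map_sub, coeff_X_pow_mul', sig, coeff_rescale, coeff_rescale]
        split_ifs with h
        · rw [ih.1 (k - n) (by omega)]; simp
        · simp
      refine ⟨fun k hk => by rw [e k hk.le, ih.1 k hk, mul_zero], ?_⟩
      rw [e m le_rfl, ih.2, ← mul_assoc, ← pow_add]; congr 2; ring
  obtain ⟨D, hD⟩ : ∃ D, D + 1 = 3 * r ^ 2 * n := ⟨3 * r ^ 2 * n - 1, by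
    have : 0 < 3 * r ^ 2 * n := by positivity
    omega⟩
  obtain ⟨E, hE⟩ : ∃ E, E + 1 = 3 * n * r ^ 3 := ⟨3 * n * r ^ 3 - 1, by
    have : 0 < 3 * n * r ^ 3 := by positivity
    omega⟩
  let v : Fin (r + 1) × Fin (D + 1) × Fin (E + 1) → MM S (r * n + D) (n * r ^ 2 + E) :=
    fun p => ⟨X ^ (p.2.1 : ℕ) * C (X ^ (p.2.2 : ℕ)) * u p.1, MM_shift (hu p.1)
      (add_le_add (Nat.mul_le_mul_right _ (Nat.lt_succ_iff.mp p.1.2)) (Nat.lt_succ_iff.mp p.2.1.2))
      (add_le_add (Nat.mul_le_mul_left _ (Nat.pow_le_pow_left (Nat.lt_succ_iff.mp p.1.2) 2))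
        (Nat.lt_succ_iff.mp p.2.2.2))⟩
  have hdep : ¬ LinearIndependent F v := by
    intro hli
    have : Module.Finite F (MM S (r * n + D) (n * r ^ 2 + E)) :=
      Module.Finite.span_of_finite F (Finset.finite_toSet _)
    have h1 := hli.fintype_card_le_finrank.trans (MM_rank _ _ _)
    simp only [Fintype.card_prod, Fintype.card_fin] at h1
    have h2 : (r * n + D + 1) * ((n * r ^ 2 + E + 1) * S.card)
        ≤ (r * n + D + 1) * ((n * r ^ 2 + E + 1) * r) := by gcongr
    rw [add_assoc (r * n), add_assoc (n * r ^ 2), hD, hE] at h1 h2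
    have h3 := h1.trans h2
    have h4 : 0 < r ^ 4 * n ^ 2 := by positivity
    have h5 : r ^ 4 * n ^ 2 * (9 * r ^ 2 + 9 * r) ≤ r ^ 4 * n ^ 2 * (9 * r ^ 2 + 6 * r + 1) := by
      calc _ = (r + 1) * (3 * r ^ 2 * n * (3 * n * r ^ 3)) := by ring
        _ ≤ _ := h3
        _ = _ := by ring
    have := Nat.le_of_mul_le_mul_left h5 h4
    omega
  obtain ⟨g, hg, p0, hp0⟩ := Fintype.not_linearIndependent_iff.mp hdep
  obtain ⟨p1, hp1, hmin⟩ := Finset.exists_min_image (Finset.univ.filter fun p => g p ≠ 0)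
    (fun p => (p.2.1 : ℕ)) ⟨p0, by simpa using hp0⟩
  have hp1' : g p1 ≠ 0 := by simpa using hp1
  have h1 := congrArg (fun x : MM S (r * n + D) (n * r ^ 2 + E) =>
    coeff ((p1.2.1 : ℕ) + m) (x : RR F)) hg
  simp only [Submodule.coe_sum, Submodule.coe_smul, map_sum, Submodule.coe_zero, map_zero,
    v] at h1
  have h2 : ∀ p : Fin (r + 1) × Fin (D + 1) × Fin (E + 1),
      coeff ((p1.2.1 : ℕ) + m) (g p • (X ^ (p.2.1 : ℕ) * C (X ^ (p.2.2 : ℕ)) * u p.1)) =
      (if p.2.1 = p1.2.1 then g p • (X : PowerSeries F) ^ ((p.2.2 : ℕ) + p.1 * m) else 0)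
        * coeff m y := by
    intro p
    by_cases hgp : g p = 0
    · simp [hgp]
    have hle := hmin p (by simpa using hgp)
    have e : coeff ((p1.2.1 : ℕ) + m) (g p • (X ^ (p.2.1 : ℕ) * C (X ^ (p.2.2 : ℕ)) * u p.1))
        = g p • coeff ((p1.2.1 : ℕ) + m) (X ^ (p.2.1 : ℕ) * (C (X ^ (p.2.2 : ℕ)) * u p.1)) := by
      rw [mul_assoc]; rfl
    rw [e, coeff_X_pow_mul', coeff_C_mul]
    by_cases hp : p.2.1 = p1.2.1
    · rw [if_pos hp, hp, if_pos (by omega), Nat.add_sub_cancel_left, (hlow _).2, pow_add,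
        smul_mul_assoc, mul_assoc]
    · have : (p1.2.1 : ℕ) < p.2.1 := lt_of_le_of_ne hle fun h => hp (Fin.ext h.symm)
      rw [if_neg hp, zero_mul]
      split_ifs with h
      · rw [(hlow _).1 _ (by omega)]; simp
      · simp
  simp only [h2, ← Finset.sum_mul] at h1
  have h3 := congrArg (coeff ((p1.2.2 : ℕ) + p1.1 * m)) ((mul_eq_zero.mp h1).resolve_right hm1)
  rw [map_sum, map_zero, Finset.sum_eq_single p1] at h3
  · simp [coeff_X_pow] at h3; exact hp1' h3
  · intro p _ hp
    split_ifs with h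
    · rw [coeff_smul, coeff_X_pow, if_neg, smul_zero]
      intro he
      have b1 : (p1.2.2 : ℕ) < m := by have := p1.2.2.2; omega
      have b2 : (p.2.2 : ℕ) < m := by have := p.2.2.2; omega
      have c1 := congrArg (· % m) he
      have c2 := congrArg (· / m) he
      simp only [Nat.add_mul_mod_self_right, Nat.mod_eq_of_lt b1, Nat.mod_eq_of_lt b2] at c1
      simp only [Nat.add_mul_div_right _ _ (by omega : 0 < m), Nat.div_eq_of_lt b1,
        Nat.div_eq_of_lt b2, zero_add] at c2
      exact hp (Prod.ext (Fin.ext c2.symm) (Prod.ext h (Fin.ext c1.symm)))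
    · simp
  · simp

end Vale.Agent.P314
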